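import Vale.Agent.P262.Mask

namespace Vale.Agent.P262
open Finset
open Classical

noncomputable def rv (K : ℕ → ℕ → ℝ) (ξ : ℕ → ℝ) (P : ℕ → ℕ → Prop) (τ r : ℕ) : ℝ :=
  ∑ s ∈ range τ, it (P r s) (K r s * ξ s)

noncomputable def QQ (M : ℕ) (K : ℕ → ℕ → ℝ) (ξ : ℕ → ℝ) (P : ℕ → ℕ → Prop) (τ : ℕ) : ℝ :=
  ∑ r ∈ range M, rv K ξ P τ r ^ 2

noncomputable def ms (M : ℕ) (K : ℕ → ℕ → ℝ) (P : ℕ → ℕ → Prop) (τ : ℕ) : ℝ :=
  ∑ s ∈ range τ, ∑ r ∈ range M, it (P r s) (K r s ^ 2)

lemma ms_mono (M : ℕ) (K : ℕ → ℕ → ℝ) {P Q : ℕ → ℕ → Prop} (h : ∀ r s, P r s → Q r s) (τ : ℕ) :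
    ms M K P τ ≤ ms M K Q τ :=
  sum_le_sum fun s _ => sum_le_sum fun r _ => it_le (h r s) (sq_nonneg _)

lemma group_le (R J : Finset ℕ) (φ : ℕ → ℕ) (val B : ℕ → ℝ) (h1 : ∀ r ∈ R, φ r ∈ J)
    (h2 : ∀ j ∈ J, ∑ r ∈ R.filter (fun r => φ r = j), val r ≤ B j) :
    ∑ r ∈ R, val r ≤ ∑ j ∈ J, B j := by
  rw [← sum_fiberwise_of_maps_to h1]
  exact sum_le_sum h2

lemma sub_QQ (M : ℕ) (K : ℕ → ℕ → ℝ) (ξ : ℕ → ℝ) (P : ℕ → ℕ → Prop) (τ : ℕ) (S : Finset ℕ)
    (val : ℕ → ℝ) (h1 : ∀ r ∈ S, r < M) (h2 : ∀ r ∈ S, val r = rv K ξ P τ r) :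
    ∑ r ∈ S, val r ^ 2 ≤ QQ M K ξ P τ := by
  rw [sum_congr rfl fun r hr => by rw [h2 r hr]]
  exact sum_le_sum_of_subset_of_nonneg (fun r hr => mem_range.2 (h1 r hr))
    fun r _ _ => sq_nonneg _

lemma tele (n : ℕ → ℕ) (hn : ∀ l, n (l+1) ≤ n l) (g : ℕ) (x : ℝ) (L : ℕ) :
    ∑ l ∈ range L, it (n (l+1) ≤ g ∧ g < n l) x = it (g < n 0) x - it (g < n L) x := by
  induction L with
  | zero => simp
  | succ L ih =>
    rw [sum_range_succ, ih]
    have := hn L
    by_cases h1 : g < n (L+1)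
    · rw [it_pos h1, it_pos (show g < n L by omega), it_neg (show ¬ (n (L+1) ≤ g ∧ g < n L) by omega)]
      ring
    · by_cases h2 : g < n L
      · rw [it_neg h1, it_pos h2, it_pos (show n (L+1) ≤ g ∧ g < n L by omega)]; ring
      · rw [it_neg h1, it_neg h2, it_neg (show ¬ (n (L+1) ≤ g ∧ g < n L) by omega)]; ring

lemma rnd_anti (n l : ℕ) : 2^(l+1) * (n / 2^(l+1)) ≤ 2^l * (n / 2^l) := by
  rw [pow_succ, ← Nat.div_div_eq_div_mul, mul_assoc]
  exact Nat.mul_le_mul_left _ (Nat.mul_div_le _ _)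

lemma rnd_div (n l : ℕ) : 2^l * (n / 2^l) / 2^(l+1) = n / 2^(l+1) := by
  rw [pow_succ, ← Nat.div_div_eq_div_mul, ← Nat.div_div_eq_div_mul,
    Nat.mul_div_cancel_left _ (by positivity)]

lemma wcs (L : ℕ) (a : ℕ → ℝ) :
    (∑ l ∈ range L, a l)^2 ≤ 4 * ∑ l ∈ range L, (4/3:ℝ)^l * a l ^2 := by
  have h1 := sum_mul_sq_le_sq_mul_sq (range L) (fun l => Real.sqrt ((3/4:ℝ)^l))
    (fun l => Real.sqrt ((4/3:ℝ)^l) * a l)
  have e1 : ∀ l, Real.sqrt ((3/4:ℝ)^l) * (Real.sqrt ((4/3:ℝ)^l) * a l) = a l := by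
    intro l
    rw [← mul_assoc, ← Real.sqrt_mul (by positivity), ← mul_pow]
    norm_num
  have e2 : ∀ l, Real.sqrt ((3/4:ℝ)^l) ^ 2 = (3/4:ℝ)^l := fun l => Real.sq_sqrt (by positivity)
  have e3 : ∀ l, (Real.sqrt ((4/3:ℝ)^l) * a l)^2 = (4/3:ℝ)^l * a l ^2 := fun l => by
    rw [mul_pow, Real.sq_sqrt (by positivity)]
  simp only [e1, e2, e3] at h1
  refine h1.trans (mul_le_mul_of_nonneg_right ?_ (sum_nonneg fun l _ => by positivity))
  rw [geom_sum_eq (by norm_num)]
  have : (0:ℝ) ≤ (3/4)^L := by positivity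
  rw [div_le_iff_of_neg (by norm_num)]
  linarith

lemma geom_le (L : ℕ) (q : ℝ) (h0 : 0 ≤ q) (h1 : q < 1) : ∑ l ∈ range L, q^l ≤ 1 / (1 - q) := by
  have h2 := geom_sum_mul_neg q L
  have h3 : 0 ≤ q^L := by positivity
  rw [le_div_iff₀ (by linarith)]
  linarith

section
variable {N D : ℕ} {h : ℝ} {K En m : ℕ → ℕ → ℝ} (H : Hyp N D h K En m)
include H

theorem decomp (M : ℕ) (hM : N ≤ M) (ξ : ℕ → ℝ) (A dd : ℝ) (hA : 0 ≤ A) (t : ℕ) (ht : t < N)
    (hP4 : ∑ s ∈ range (t+1), En s (t+1) ≤ dd)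
    (hN : ∀ j < D, ∀ x < N, QQ M K ξ (mNear N D En m j x) (t+1)
      ≤ A * (1 + 4 * ms M K (mNear N D En m j x) (t+1)))
    (hF : ∀ j < D, ∀ x < N, QQ M K ξ (mFar N D En m j x) (t+1)
      ≤ A * (1 + 4 * ms M K (mFar N D En m j x) (t+1)))
    (hL1 : ∀ j < D, ∀ x < N, QQ M K ξ (mL1 N D m j x) (t+1)
      ≤ A * (1 + 4 * ms M K (mL1 N D m j x) (t+1)))
    (hL2 : ∀ l < D, ∀ j < D, ∀ x < N, QQ M K ξ (mL2 N D m l j x) (t+1)
      ≤ A * ((5/4)^l + 4 * ms M K (mL2 N D m l j x) (t+1))) :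
    ∑ r ∈ Ico (t+1) N, (∑ s ∈ range (t+1), K r s * ξ s)^2
      ≤ 4 * A * (27 * D * (1 + h) + 4 * dd) := by
  have hh := H.h_nonneg
  set R := Ico (t+1) N with hR
  set X : ℕ → ℕ := fun j => sInf {x | t < x ∧ t < al m D (j+1) x} with hX
  set J : ℕ → ℕ := fun r => lc m D t r with hJ
  have hRt : ∀ r ∈ R, t < r ∧ r < N := fun r hr => by
    have := mem_Ico.1 hr; omega
  have hJD : ∀ r ∈ R, J r < D := fun r hr => lc_lt H (hRt r hr).1
  have hJ1 : ∀ r, al m D (J r) r ≤ t := fun r => al_lc m D t r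
  have hJ2 : ∀ r ∈ R, t < al m D (J r + 1) r := fun r hr => lt_al_lc H (hRt r hr).1
  have hJ3 : ∀ r ∈ R, ∀ i ≤ J r, al m D i t = al m D i r := fun r hr i hi =>
    al_same m D hi (hJ1 r) (hRt r hr).1.le
  have hJ4 : ∀ r ∈ R, ∀ i ≤ J r, nn m D t i = nn m D r i := fun r hr =>
    nn_same m D (hJ1 r) (hRt r hr).1.le
  have hXp : ∀ r ∈ R, t < X (J r) ∧ X (J r) ≤ r ∧ al m D (J r + 1) (X (J r)) = X (J r) ∧
      al m D (J r) (X (J r)) = al m D (J r) r := by
    intro r hr
    have hmem : r ∈ {x | t < x ∧ t < al m D (J r + 1) x} := ⟨(hRt r hr).1, hJ2 r hr⟩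
    have h1 : X (J r) ∈ {x | t < x ∧ t < al m D (J r + 1) x} := Nat.sInf_mem ⟨r, hmem⟩
    have h2 : X (J r) ≤ r := Nat.sInf_le hmem
    obtain ⟨h3, h4⟩ := h1
    refine ⟨h3, h2, al_new m D (by omega) ?_, al_int m D _ ((hJ1 r).trans h3.le) h2⟩
    have h5 : X (J r) - 1 ∉ {x | t < x ∧ t < al m D (J r + 1) x} :=
      Nat.notMem_of_lt_sInf (show X (J r) - 1 < X (J r) by omega)
    have h6 := al_le m D (J r + 1) (X (J r) - 1)
    simp only [Set.mem_setOf_eq] at h5
    omega
  set rn : ℕ → ℕ → ℕ := fun r l => 2^l * ((nn m D r (J r) - 1) / 2^l) with hrn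
  set v1 : ℕ → ℝ := fun r => rv K ξ (mNear N D En m (J r) (X (J r))) (t+1) r with hv1
  set v2 : ℕ → ℝ := fun r => rv K ξ (mFar N D En m (J r) (al m D (J r) t)) (t+1) r with hv2
  set v3 : ℕ → ℝ := fun r => rv K ξ (mL1 N D m (J r) (al m D (J r) t)) (t+1) r with hv3
  set v4 : ℕ → ℕ → ℝ := fun l r => ∑ s ∈ range (t+1),
    it (rn r (l+1) ≤ gi m D s r ∧ gi m D s r < rn r l) (K r s * ξ s) with hv4
  have hid : ∀ r ∈ R, ∑ s ∈ range (t+1), K r s * ξ s
      = v1 r + v2 r + v3 r + ∑ l ∈ range D, v4 l r := by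
    intro r hr
    simp only [hv1, hv2, hv3, hv4, rv]
    rw [sum_comm (s := range D), ← sum_add_distrib, ← sum_add_distrib, ← sum_add_distrib]
    refine sum_congr rfl fun s hs => ?_
    have hst : s ≤ t := by have := mem_range.1 hs; omega
    obtain ⟨r1, r2⟩ := hRt r hr
    obtain ⟨x1, x2, x3, x4⟩ := hXp r hr
    have j1 := hJ1 r
    have j2 := hJ2 r hr
    have j3 := hJ3 r hr (J r) le_rfl
    have hg := gi_lt H (show s < r by omega) (hJD r hr).le
    rw [tele (rn r) (fun l => rnd_anti _ l)]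
    have e0 : rn r 0 = nn m D r (J r) - 1 := by simp [hrn]
    have eD : rn r D = 0 := by
      have h1 := nn_le m D r (J r)
      have h2 := hJD r hr
      have h3 : D < 2^D := Nat.lt_two_pow_self
      simp only [hrn]
      rw [Nat.div_eq_of_lt (by omega)]; simp
    rw [e0, eD, it_neg (Nat.not_lt_zero _), sub_zero]
    by_cases hnew : al m D (J r) r ≤ s
    · rw [it_neg (P := mL1 N D m (J r) (al m D (J r) t) r s) (fun h => by
        have := h.1.2.2.2; omega), it_neg (P := gi m D s r < nn m D r (J r) - 1) (by omega)]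
      by_cases hf : far D En m (J r) s r
      · rw [it_neg (P := mNear N D En m (J r) (X (J r)) r s) (fun h => h.2.2.2.2.2.2.2 hf),
          it_pos (P := mFar N D En m (J r) (al m D (J r) t) r s) ⟨r2, j3.symm, by omega, hf⟩]
        ring
      · rw [it_pos (P := mNear N D En m (J r) (X (J r)) r s)
          ⟨r2, x3, by omega, x2, x4.symm, by omega, by omega, hf⟩,
          it_neg (P := mFar N D En m (J r) (al m D (J r) t) r s) (fun h => hf h.2.2.2)]
        ring
    · rw [it_neg (P := mNear N D En m (J r) (X (J r)) r s) (fun h => by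
          have := h.2.2.2.2.2.1; omega),
        it_neg (P := mFar N D En m (J r) (al m D (J r) t) r s) (fun h => by
          have := h.2.2.1; omega)]
      by_cases h1 : gi m D s r + 1 = nn m D r (J r)
      · rw [it_pos (P := mL1 N D m (J r) (al m D (J r) t) r s)
          ⟨⟨r2, j3.symm, by omega, by omega⟩, h1⟩,
          it_neg (P := gi m D s r < nn m D r (J r) - 1) (by omega)]
        ring
      · rw [it_neg (P := mL1 N D m (J r) (al m D (J r) t) r s) (fun h => h1 h.2),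
          it_pos (P := gi m D s r < nn m D r (J r) - 1) (by omega)]
        ring
  have htN : ∀ j, al m D j t < N := fun j => (al_le m D j t).trans_lt ht
  have b1 : ∑ r ∈ R, v1 r ^ 2 ≤ A * (D + 4 * dd) := by
    refine (group_le R (range D) J _ (fun j => A * (1 + 4 * ∑ r ∈ R.filter (fun r => J r = j),
      ∑ s ∈ range (t+1), K r s ^ 2)) (fun r hr => mem_range.2 (hJD r hr)) ?_).trans ?_
    · intro j hj
      rcases (R.filter (fun r => J r = j)).eq_empty_or_nonempty with he | ⟨r0, hr0⟩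
      · rw [he]; simp [hA]
      · obtain ⟨hr0, hj0⟩ := mem_filter.1 hr0
        obtain ⟨x1, x2, x3, x4⟩ := hXp r0 hr0
        rw [hj0] at x1 x2 x3 x4
        have j1 := hJ1 r0
        rw [hj0] at j1
        refine (sub_QQ M K ξ (mNear N D En m j (X j)) (t+1) _ v1
          (fun r hr => by have := (hRt r (mem_filter.1 hr).1).2; omega)
          (fun r hr => by simp only [hv1]; rw [(mem_filter.1 hr).2])).trans ?_
        refine (hN j (mem_range.1 hj) (X j) (by have := (hRt r0 hr0).2; omega)).trans ?_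
        refine mul_le_mul_of_nonneg_left ?_ hA
        have : ms M K (mNear N D En m j (X j)) (t+1)
            ≤ ∑ r ∈ R.filter (fun r => J r = j), ∑ s ∈ range (t+1), K r s ^ 2 := by
          rw [sum_comm]
          refine sum_le_sum fun s _ => row_le _ _ _ _ (fun r => sq_nonneg _) fun r hr => ?_
          obtain ⟨g1, g2, g3, g4, g5, _⟩ := hr
          refine mem_filter.2 ⟨mem_Ico.2 ⟨by omega, g1⟩, lc_eq m D (mem_range.1 hj) (by omega) ?_⟩
          have := al_mono m D (j+1) g4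
          omega
        linarith
    · rw [← mul_sum, sum_add_distrib, ← mul_sum,
        sum_fiberwise_of_maps_to (fun r hr => mem_range.2 (hJD r hr)), sum_comm]
      refine mul_le_mul_of_nonneg_left ?_ hA
      have : ∑ s ∈ range (t+1), ∑ r ∈ R, K r s ^ 2 ≤ dd := by
        refine le_trans (sum_le_sum fun s hs => ?_) hP4
        rw [← H.en_tel s (t+1) N (mem_range.1 hs) (by omega) le_rfl]
        have := H.en_nonneg s N
        linarith
      simp only [sum_const, card_range, nsmul_eq_mul, mul_one]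
      linarith
  have b2 : ∑ r ∈ R, v2 r ^ 2 ≤ A * (D * (1 + h)) := by
    refine (group_le R (range D) J _ (fun j => A * (1 + h))
      (fun r hr => mem_range.2 (hJD r hr)) ?_).trans (le_of_eq ?_)
    · intro j hj
      refine (sub_QQ M K ξ (mFar N D En m j (al m D j t)) (t+1) _ v2
        (fun r hr => by have := (hRt r (mem_filter.1 hr).1).2; omega)
        (fun r hr => by simp only [hv2]; rw [(mem_filter.1 hr).2])).trans ?_
      refine (hF j (mem_range.1 hj) _ (htN j)).trans (mul_le_mul_of_nonneg_left ?_ hA)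
      have := mass_far H (mem_range.1 hj) (al m D j t) M (t+1)
      unfold ms
      linarith
    · simp only [sum_const, card_range, nsmul_eq_mul]; ring
  have b3 : ∑ r ∈ R, v3 r ^ 2 ≤ A * (D * (1 + h)) := by
    refine (group_le R (range D) J _ (fun j => A * (1 + h))
      (fun r hr => mem_range.2 (hJD r hr)) ?_).trans (le_of_eq ?_)
    · intro j hj
      refine (sub_QQ M K ξ (mL1 N D m j (al m D j t)) (t+1) _ v3
        (fun r hr => by have := (hRt r (mem_filter.1 hr).1).2; omega)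
        (fun r hr => by simp only [hv3]; rw [(mem_filter.1 hr).2])).trans ?_
      refine (hL1 j (mem_range.1 hj) _ (htN j)).trans (mul_le_mul_of_nonneg_left ?_ hA)
      have h1 := mass_old H (mem_range.1 hj) (al m D j t) M (t+1)
      have h2 := ms_mono M K (P := mL1 N D m j (al m D j t)) (Q := mOld N D m j (al m D j t))
        (fun r s h => h.1) (t+1)
      unfold ms at h2 ⊢
      linarith
    · simp only [sum_const, card_range, nsmul_eq_mul]; ring
  have b4 : ∀ l ∈ range D, ∑ r ∈ R, v4 l r ^ 2 ≤ (5/8)^l * (A * (D * (1 + h))) := by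
    intro l hl
    have hp : 0 < 2^l := by positivity
    refine (group_le R (range (D / 2^l + 1)) (fun r => (nn m D r (J r) - 1) / 2^l) _
      (fun q => if q = 0 then 0 else A * ((5/4)^l * (1 + h))) ?_ ?_).trans ?_
    · intro r hr
      have h1 := nn_le m D r (J r)
      have h2 := hJD r hr
      exact mem_range.2 (Nat.lt_succ_of_le (Nat.div_le_div_right (by omega)))
    · intro q _
      by_cases hq : q = 0
      · rw [if_pos hq]
        refine le_of_eq (sum_eq_zero fun r hr => ?_)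
        have h1 := (mem_filter.1 hr).2
        simp only [hv4]
        rw [sum_eq_zero, zero_pow two_ne_zero]
        intro s _
        refine it_neg ?_ _
        simp only [hrn, h1, hq]
        omega
      rw [if_neg hq]
      rcases (R.filter (fun r => (nn m D r (J r) - 1) / 2^l = q)).eq_empty_or_nonempty
        with he | ⟨r0, hr0⟩
      · rw [he, sum_empty]; positivity
      have hlt : ∀ r ∈ R.filter (fun r => (nn m D r (J r) - 1) / 2^l = q),
          2^l * q < nn m D t (J r) := by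
        intro r hr
        obtain ⟨hr1, hr2⟩ := mem_filter.1 hr
        rw [hJ4 r hr1 _ le_rfl]
        have h1 := Nat.mul_div_le (nn m D r (J r) - 1) (2^l)
        rw [hr2] at h1
        have : 0 < 2^l * q := Nat.mul_pos hp (by omega)
        omega
      obtain ⟨i, hi1, hi2, hi3⟩ := nn_ivt m D t _ _ (hlt r0 hr0)
      have hiD : i < D := hi1.trans (hJD r0 (mem_filter.1 hr0).1)
      refine (sub_QQ M K ξ (mL2 N D m l i (al m D i t)) (t+1) _ (v4 l)
        (fun r hr => by have := (hRt r (mem_filter.1 hr).1).2; omega) ?_).trans ?_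
      · intro r hr
        have h0 := hlt r hr
        obtain ⟨hr1, hr2⟩ := mem_filter.1 hr
        have hiJ : i < J r := by
          by_contra h1
          have := nn_mono m D t (not_lt.1 h1)
          omega
        have a1 := hJ3 r hr1 i hiJ.le
        have a2 := hJ3 r hr1 (i+1) hiJ
        have a3 := hJ4 r hr1 i hiJ.le
        obtain ⟨r1, r2⟩ := hRt r hr1
        simp only [hv4, rv]
        refine sum_congr rfl fun s hs => it_congr ?_ _
        have hst : s ≤ t := by have := mem_range.1 hs; omega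
        have hg := gi_lt H (show s < r by omega) hiD.le
        have e1 : rn r l = nn m D r i := by simp only [hrn]; rw [hr2]; omega
        have e2 : rn r (l+1) = 2^(l+1) * (nn m D r i / 2^(l+1)) := by
          rw [← e1]; simp only [hrn]; rw [rnd_div]
        rw [e1, e2]
        constructor
        · rintro ⟨c1, c2⟩
          exact ⟨⟨r2, a1.symm, by omega, by omega⟩, ⟨q, by omega⟩, c1⟩
        · rintro ⟨⟨_, _, _, c4⟩, _, c6⟩
          exact ⟨c6, by omega⟩
      · refine (hL2 l (mem_range.1 hl) i hiD _ (htN i)).trans (mul_le_mul_of_nonneg_left ?_ hA)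
        have h1 := mass_old H hiD (al m D i t) M (t+1)
        have h2 := ms_mono M K (P := mL2 N D m l i (al m D i t)) (Q := mOld N D m i (al m D i t))
          (fun r s h => h.1) (t+1)
        have h3 : (1:ℝ) ≤ (5/4)^l := one_le_pow₀ (by norm_num)
        unfold ms at h2 ⊢
        nlinarith
    · rw [sum_range_succ']
      simp only [Nat.succ_ne_zero, if_false, if_true, add_zero, sum_const, card_range,
        nsmul_eq_mul]
      have h1 : ((D / 2^l : ℕ) : ℝ) ≤ D / 2^l := by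
        have := Nat.cast_div_le (α := ℝ) (m := D) (n := 2^l)
        simpa using this
      calc ((D / 2^l : ℕ) : ℝ) * (A * ((5/4)^l * (1 + h)))
          ≤ (D / 2^l) * (A * ((5/4)^l * (1 + h))) :=
            mul_le_mul_of_nonneg_right h1 (by positivity)
        _ = _ := by
            rw [show (5/8:ℝ) = (5/4) / 2 by norm_num, div_pow (5/4:ℝ) 2 l]
            ring
  have b5 : ∑ r ∈ R, (∑ l ∈ range D, v4 l r)^2 ≤ 24 * (A * (D * (1 + h))) := by
    refine (sum_le_sum fun r _ => wcs D _).trans ?_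
    rw [← mul_sum, sum_comm]
    have h1 : ∑ l ∈ range D, ∑ r ∈ R, (4/3:ℝ)^l * v4 l r ^ 2
        ≤ ∑ l ∈ range D, (5/6:ℝ)^l * (A * (D * (1 + h))) := by
      refine sum_le_sum fun l hl => ?_
      rw [← mul_sum, show (5/6:ℝ) = (4/3) * (5/8) by norm_num, mul_pow, mul_assoc]
      exact mul_le_mul_of_nonneg_left (b4 l hl) (by positivity)
    rw [← sum_mul] at h1
    have h2 := geom_le D (5/6) (by norm_num) (by norm_num)
    have h3 : 0 ≤ A * (D * (1 + h)) := by positivity
    nlinarith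
  calc _ ≤ ∑ r ∈ R, 4 * (v1 r ^ 2 + v2 r ^ 2 + v3 r ^ 2 + (∑ l ∈ range D, v4 l r)^2) := by
        refine sum_le_sum fun r hr => ?_
        rw [hid r hr]
        generalize v1 r = a
        generalize v2 r = b
        generalize v3 r = c
        generalize ∑ l ∈ range D, v4 l r = e
        nlinarith [sq_nonneg (a - b), sq_nonneg (a - c), sq_nonneg (a - e), sq_nonneg (b - c),
          sq_nonneg (b - e), sq_nonneg (c - e)]
    _ ≤ _ := by
        rw [← mul_sum, sum_add_distrib, sum_add_distrib, sum_add_distrib]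
        have h3 : 0 ≤ A * (D * h) := by positivity
        nlinarith

end

end Vale.Agent.P262
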