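import Vale.Agent.P262.Label

namespace Vale.Agent.P262
open Finset

variable {E : Type} [NormedAddCommGroup E] [InnerProductSpace ℝ E]

noncomputable def ps (w : ℕ → E) (ξ : ℕ → ℝ) (t : ℕ) : E := ∑ s ∈ range t, ξ s • w s

noncomputable def mx (w : ℕ → E) (ξ : ℕ → ℝ) : ℕ → ℝ
  | 0 => 0
  | t+1 => max (mx w ξ t) ‖ps w ξ (t+1)‖

lemma ps_succ (w : ℕ → E) (ξ : ℕ → ℝ) (t : ℕ) : ps w ξ (t+1) = ps w ξ t + ξ t • w t :=
  sum_range_succ _ _

lemma ps_congr (w : ℕ → E) {ξ η : ℕ → ℝ} {t : ℕ} (h : ∀ s < t, ξ s = η s) :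
    ps w ξ t = ps w η t :=
  sum_congr rfl fun s hs => by rw [h s (mem_range.1 hs)]

lemma mx_congr (w : ℕ → E) {ξ η : ℕ → ℝ} {t : ℕ} (h : ∀ s < t, ξ s = η s) :
    mx w ξ t = mx w η t := by
  induction t with
  | zero => rfl
  | succ t ih => simp only [mx]; rw [ih fun s hs => h s (by omega), ps_congr w h]

lemma mx_nonneg (w : ℕ → E) (ξ : ℕ → ℝ) (t : ℕ) : 0 ≤ mx w ξ t := by
  cases t with
  | zero => exact le_rfl
  | succ t => exact le_max_of_le_right (norm_nonneg _)

lemma norm_ps_le_mx (w : ℕ → E) (ξ : ℕ → ℝ) {t n : ℕ} (h : t ≤ n) : ‖ps w ξ t‖ ≤ mx w ξ n := by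
  induction n with
  | zero =>
    obtain rfl : t = 0 := by omega
    simp [ps, mx]
  | succ n ih =>
    rcases Nat.lt_succ_iff_lt_or_eq.1 (Nat.lt_succ_of_le h) with h1 | h1
    · exact le_max_of_le_left (ih (by omega))
    · subst h1; exact le_max_right _ _

lemma cv_insert_ne {x : Finset ℕ} {s t : ℕ} (h : s ≠ t) : cv (insert t x) s = cv x s := by
  simp [cv, h]

lemma ps_lip (w : ℕ → E) (x : Finset ℕ) (s : ℕ) (hs : s ∉ x) (t : ℕ) :
    ‖ps w (cv x) t - ps w (cv (insert s x)) t‖ ≤ 5 * ‖w s‖ := by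
  have h : ps w (cv x) t - ps w (cv (insert s x)) t
      = ∑ j ∈ range t, if j = s then (-5 : ℝ) • w s else 0 := by
    unfold ps
    rw [← sum_sub_distrib]
    refine sum_congr rfl fun j _ => ?_
    by_cases h : j = s
    · subst h
      simp only [cv, hs, mem_insert_self, if_true, if_false]
      rw [← sub_smul]; norm_num
    · simp [cv_insert_ne h, h]
  rw [h, sum_ite_eq']
  split_ifs
  · rw [norm_smul]; norm_num
  · simp

lemma mx_lip (w : ℕ → E) (x : Finset ℕ) (s : ℕ) (hs : s ∉ x) (t : ℕ) :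
    |mx w (cv x) t - mx w (cv (insert s x)) t| ≤ 5 * ‖w s‖ := by
  induction t with
  | zero => simp [mx]
  | succ t ih =>
    simp only [mx]
    refine (abs_max_sub_max_le_max _ _ _ _).trans (max_le ih ?_)
    exact (abs_norm_sub_norm_le _ _).trans (ps_lip w x s hs _)

lemma sum_pow_split (n t : ℕ) (ht : t < n) (f : Finset ℕ → ℝ) :
    ∑ x ∈ (range n).powerset, f x
      = ∑ x ∈ ((range n).erase t).powerset, (f x + f (insert t x)) := by
  conv_lhs => rw [← insert_erase (mem_range.2 ht)]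
  rw [sum_powerset_insert (by simp), sum_add_distrib]

lemma doob_aux (w : ℕ → E) (n : ℕ) : ∀ t ≤ n,
    (∑ x ∈ (range n).powerset,
      (2 * mx w (cv x) t ^ 2 - 4 * mx w (cv x) t * ‖ps w (cv x) t‖) ≤ 0) ∧
    ∑ x ∈ (range n).powerset, (‖ps w (cv x) t‖ ^ 2 - 25/4 * ∑ s ∈ range t, ‖w s‖^2) ≤ 0 := by
  intro t ht
  induction t with
  | zero => simp [mx, ps]
  | succ t ih =>
    obtain ⟨h1, h2⟩ := ih (by omega)
    have key : ∀ x ∈ ((range n).erase t).powerset,
        ps w (cv (insert t x)) t = ps w (cv x) t ∧ mx w (cv (insert t x)) t = mx w (cv x) t ∧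
        ps w (cv x) (t+1) = ps w (cv x) t - (5/2 : ℝ) • w t ∧
        ps w (cv (insert t x)) (t+1) = ps w (cv x) t + (5/2 : ℝ) • w t := by
      intro x hx
      have htx : t ∉ x := fun h => by simpa using mem_powerset.1 hx h
      have e : ∀ s < t, cv (insert t x) s = cv x s := fun s hs => cv_insert_ne (by omega)
      refine ⟨ps_congr w e, mx_congr w e, ?_, ?_⟩
      · rw [ps_succ]; simp [cv, htx, sub_eq_add_neg]
      · rw [ps_succ, ps_congr w e]; simp [cv]
    constructor
    · refine le_trans ?_ h1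
      rw [sum_pow_split n t (by omega), sum_pow_split n t (by omega)]
      refine sum_le_sum fun x hx => ?_
      obtain ⟨e1, e2, e3, e4⟩ := key x hx
      simp only [mx]
      rw [e1, e2, e3, e4]
      set z := ps w (cv x) t
      set u := (5/2 : ℝ) • w t
      set m := mx w (cv x) t
      have hm : 0 ≤ m := mx_nonneg _ _ _
      have aux : ∀ a : ℝ, 2 * (max m a)^2 - 4 * max m a * a ≤ 2 * m^2 - 4 * m * a := by
        intro a
        rcases le_total a m with h | h
        · rw [max_eq_left h]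
        · rw [max_eq_right h]; nlinarith [sq_nonneg (m - a)]
      have tri : 2 * ‖z‖ ≤ ‖z - u‖ + ‖z + u‖ := by
        have := norm_add_le (z - u) (z + u)
        have e : z - u + (z + u) = (2:ℝ) • z := by module
        rw [e, norm_smul] at this
        simpa using this
      have a1 := aux ‖z - u‖
      have a2 := aux ‖z + u‖
      nlinarith
    · refine le_trans ?_ h2
      rw [sum_pow_split n t (by omega), sum_pow_split n t (by omega)]
      refine sum_le_sum fun x hx => ?_
      obtain ⟨e1, e2, e3, e4⟩ := key x hx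
      rw [e1, e3, e4, sum_range_succ]
      have := parallelogram_law_with_norm ℝ (ps w (cv x) t) ((5/2 : ℝ) • w t)
      rw [norm_smul, Real.norm_eq_abs, abs_of_pos (by norm_num)] at this
      nlinarith

lemma doob (w : ℕ → E) (n : ℕ) (r : ℝ) (hr : 0 < r) (hV : ∑ s ∈ range n, ‖w s‖^2 ≤ r^2) :
    (∑ x ∈ (range n).powerset, mx w (cv x) n / r) / 2^n ≤ 5 := by
  obtain ⟨h1, h2⟩ := doob_aux w n n le_rfl
  have h3 : ∑ x ∈ (range n).powerset, (mx w (cv x) n / r - 5) ≤ 0 := by
    have h4 : ∀ x ∈ (range n).powerset, mx w (cv x) n / r - 5 ≤ (1 / (10 * r^2)) *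
        ((2 * mx w (cv x) n ^ 2 - 4 * mx w (cv x) n * ‖ps w (cv x) n‖) +
          4 * (‖ps w (cv x) n‖ ^ 2 - 25/4 * ∑ s ∈ range n, ‖w s‖^2)) := by
      intro x _
      set m := mx w (cv x) n
      set a := ‖ps w (cv x) n‖
      set V := ∑ s ∈ range n, ‖w s‖^2
      have e : m / r - 5 = (1 / (10 * r^2)) * (10 * r * m - 50 * r^2) := by
        field_simp
        ring
      rw [e]
      refine mul_le_mul_of_nonneg_left ?_ (by positivity)
      nlinarith [sq_nonneg (m - 2 * a), sq_nonneg (m - 5 * r)]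
    refine (sum_le_sum h4).trans ?_
    rw [← mul_sum, sum_add_distrib, ← mul_sum]
    exact mul_nonpos_of_nonneg_of_nonpos (by positivity) (by linarith)
  rw [sum_sub_distrib, sum_const, card_powerset, card_range, nsmul_eq_mul] at h3
  rw [div_le_iff₀ (by positivity)]
  push_cast at h3
  linarith

theorem contracts (c : ℕ → (ℕ → ℝ) → ℝ) (n : ℕ) {ι : Type} [Fintype ι]
    (w : ι → ℕ → E) (r : ι → ℝ) (hr : ∀ a, 0 < r a)
    (hV : ∀ a, ∑ s ∈ range n, ‖w a s‖^2 ≤ r a ^2)
    (hc : ∀ s < n, ∑ a, ‖w a s‖^2 / r a ^2 ≤ 1) :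
    ∃ ξ : ℕ → ℝ, (∀ s, |ξ s| ≤ 5/2) ∧ (∀ a, ∀ t ≤ n, ‖ps (w a) ξ t‖ ≤ 75 * r a) ∧
      ∀ t < n, ∃ k : ℤ, ξ t = c t (fun s => if s < t then ξ s else 0) + 2 * k := by
  obtain ⟨q, hq0, hq1, hqf, hqc⟩ := labels c n
    (fun a x => mx (w a) (cv x) n / r a / 55)
    (fun a x => by have := mx_nonneg (w a) (cv x) n; have := hr a; positivity) (by
      intro s hs x hx
      have h1 : ∀ a, (mx (w a) (cv x) n / r a / 55 - mx (w a) (cv (insert s x)) n / r a / 55)^2
          ≤ (1/121) * (‖w a s‖^2 / r a ^2) := by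
        intro a
        have h2 := mx_lip (w a) x s hx n
        have h3 : (mx (w a) (cv x) n - mx (w a) (cv (insert s x)) n)^2 ≤ (5 * ‖w a s‖)^2 :=
          sq_le_sq' (by linarith [(abs_le.1 h2).1]) (abs_le.1 h2).2
        have := hr a
        have e : (mx (w a) (cv x) n / r a / 55 - mx (w a) (cv (insert s x)) n / r a / 55)^2
            = (mx (w a) (cv x) n - mx (w a) (cv (insert s x)) n)^2 / (3025 * r a ^2) := by
          field_simp
          ring
        rw [e, div_le_iff₀ (by positivity)]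
        refine h3.trans (le_of_eq ?_)
        field_simp
        ring
      refine (sum_le_sum fun a _ => h1 a).trans ?_
      rw [← mul_sum]
      have := hc s hs
      linarith)
  refine ⟨fun s => ∑ x ∈ (range n).powerset, q x * cv x s, ?_, ?_, hqc⟩
  · intro s
    refine (abs_sum_le_sum_abs _ _).trans ?_
    calc ∑ x ∈ (range n).powerset, |q x * cv x s| ≤ ∑ x ∈ (range n).powerset, q x * (5/2) := by
          refine sum_le_sum fun x _ => ?_
          rw [abs_mul, abs_of_nonneg (hq0 x)]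
          refine mul_le_mul_of_nonneg_left ?_ (hq0 x)
          unfold cv
          split_ifs <;> norm_num [abs_of_pos]
      _ = 5/2 := by rw [← sum_mul, hq1]; norm_num
  · intro a t ht
    have e : ps (w a) (fun s => ∑ x ∈ (range n).powerset, q x * cv x s) t
        = ∑ x ∈ (range n).powerset, q x • ps (w a) (cv x) t := by
      unfold ps
      simp only [sum_smul, smul_sum, mul_smul]
      exact sum_comm
    rw [e]
    refine (norm_sum_le _ _).trans ?_
    have h1 := hqf a
    have h2 := doob (w a) n (r a) (hr a) (hV a)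
    have h3 : ∑ x ∈ (range n).powerset, mx (w a) (cv x) n / r a / 55
        = (∑ x ∈ (range n).powerset, mx (w a) (cv x) n / r a) / 55 := by rw [sum_div]
    rw [h3, div_right_comm] at h1
    have hra := hr a
    calc ∑ x ∈ (range n).powerset, ‖q x • ps (w a) (cv x) t‖
        ≤ ∑ x ∈ (range n).powerset, (55 * r a) * (q x * (mx (w a) (cv x) n / r a / 55)) := by
          refine sum_le_sum fun x _ => ?_
          rw [norm_smul, Real.norm_eq_abs, abs_of_nonneg (hq0 x)]
          have e : (55 * r a) * (q x * (mx (w a) (cv x) n / r a / 55)) = q x * mx (w a) (cv x) n := by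
            field_simp
          rw [e]
          exact mul_le_mul_of_nonneg_left (norm_ps_le_mx _ _ ht) (hq0 x)
      _ ≤ 75 * r a := by
          rw [← mul_sum]
          nlinarith

theorem contracts' (c : ℕ → (ℕ → ℝ) → ℝ) (n : ℕ) {ι : Type} [Fintype ι]
    (w : ι → ℕ → E) (r : ι → ℝ) (hr : ∀ a, 0 < r a) (lam : ℝ) (hlam : 1 ≤ lam)
    (hc : ∀ s < n, ∑ a, ‖w a s‖^2 / r a ^2 ≤ lam^2 / 2) :
    ∃ ξ : ℕ → ℝ, (∀ s, |ξ s| ≤ 5/2) ∧
      (∀ a, ∀ t ≤ n, ‖ps (w a) ξ t‖^2 ≤
        (75 * lam)^2 * (r a ^2 + 4 * ∑ s ∈ range t, ‖w a s‖^2)) ∧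
      ∀ t < n, ∃ k : ℤ, ξ t = c t (fun s => if s < t then ξ s else 0) + 2 * k := by
  classical
  set V : ι → ℕ → ℝ := fun a t => ∑ s ∈ range t, ‖w a s‖^2 with hV
  have hV0 : ∀ a t, 0 ≤ V a t := fun a t => sum_nonneg fun s _ => by positivity
  have hVm : ∀ a s t, s ≤ t → V a s ≤ V a t := fun a s t h =>
    sum_le_sum_of_subset_of_nonneg (range_mono h) fun s _ _ => by positivity
  set K : ℕ := ⌈∑ a, V a n / r a ^2⌉₊ with hK
  have hKV : ∀ a, V a n ≤ 4^K * r a ^2 := by
    intro a
    have := hr a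
    rw [← div_le_iff₀ (by positivity)]
    have h1 : V a n / r a ^2 ≤ ∑ a, V a n / r a ^2 :=
      single_le_sum (f := fun a => V a n / r a ^2)
        (fun a _ => div_nonneg (hV0 a n) (by positivity)) (mem_univ a)
    have h2 : (K:ℝ) ≤ 4^K := by
      have : K < 4^K := Nat.lt_pow_self (by norm_num)
      exact_mod_cast this.le
    exact h1.trans ((Nat.le_ceil _).trans h2)
  set w' : ι × Fin (K+1) → ℕ → E := fun i s =>
    if V i.1 (s+1) ≤ 4^(i.2:ℕ) * r i.1 ^2 then w i.1 s else 0 with hw'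
  have hle : ∀ i t, ∑ s ∈ range t, ‖w' i s‖^2 ≤ V i.1 t ∧
      ∑ s ∈ range t, ‖w' i s‖^2 ≤ 4^(i.2:ℕ) * r i.1 ^2 := by
    intro i t
    induction t with
    | zero => simp [hV]; positivity
    | succ t ih =>
      rw [sum_range_succ]
      have e : V i.1 (t+1) = V i.1 t + ‖w i.1 t‖^2 := sum_range_succ _ _
      simp only [hw']
      split_ifs with h
      · constructor <;> linarith [ih.1]
      · have : 0 ≤ ‖w i.1 t‖^2 := by positivity
        simp only [norm_zero]
        constructor <;> linarith [ih.1, ih.2]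
  have e4 : ∀ k : ℕ, ((2:ℝ)^k)^2 = 4^k := fun k => by
    rw [← pow_mul, mul_comm, pow_mul]; norm_num
  obtain ⟨ξ, h1, h2, h3⟩ := contracts c n w' (fun i => lam * (2^(i.2:ℕ) * r i.1))
    (fun i => by have := hr i.1; positivity)
    (fun i => by
      refine (hle i n).2.trans ?_
      have : 0 ≤ (4:ℝ)^(i.2:ℕ) * r i.1 ^2 := by positivity
      rw [mul_pow, mul_pow, e4]
      nlinarith [mul_le_mul hlam hlam zero_le_one (by linarith)])
    (fun s hs => by
      rw [Fintype.sum_prod_type]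
      have h1 : ∀ a, ∑ k : Fin (K+1), ‖w' (a, k) s‖^2 / (lam * (2^(k:ℕ) * r a))^2
          ≤ (2 / lam^2) * (‖w a s‖^2 / r a ^2) := by
        intro a
        have hra := hr a
        have h2 : ∀ k : Fin (K+1), ‖w' (a, k) s‖^2 / (lam * (2^(k:ℕ) * r a))^2
            ≤ (1/2:ℝ)^(k:ℕ) * ((1 / lam^2) * (‖w a s‖^2 / r a ^2)) := by
          intro k
          have h3 : ‖w' (a, k) s‖^2 ≤ ‖w a s‖^2 := by
            simp only [hw']
            split_ifs
            · exact le_rfl
            · simp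
          have h4 : (1:ℝ) ≤ 2^(k:ℕ) := one_le_pow₀ (by norm_num)
          have h5 : (0:ℝ) < lam := by linarith
          calc _ ≤ ‖w a s‖^2 / (lam * (2^(k:ℕ) * r a))^2 := by gcongr
            _ = (1 / 2^(k:ℕ)) * ((1/2:ℝ)^(k:ℕ) * ((1 / lam^2) * (‖w a s‖^2 / r a ^2))) := by
                rw [one_div_pow]
                field_simp
            _ ≤ _ := mul_le_of_le_one_left (by positivity) (by
                rw [div_le_one (by positivity)]; exact h4)
        refine (sum_le_sum fun k _ => h2 k).trans ?_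
        rw [← sum_mul, Fin.sum_univ_eq_sum_range (fun k => (1/2:ℝ)^k) (K+1)]
        have h6 := sum_geometric_two_le (K+1)
        have h7 : 0 ≤ (1 / lam^2) * (‖w a s‖^2 / r a ^2) := by positivity
        calc _ ≤ 2 * ((1 / lam^2) * (‖w a s‖^2 / r a ^2)) := mul_le_mul_of_nonneg_right h6 h7
          _ = _ := by ring
      refine (sum_le_sum fun a _ => h1 a).trans ?_
      rw [← mul_sum]
      have h5 : (0:ℝ) < lam := by linarith
      calc _ ≤ (2 / lam^2) * (lam^2 / 2) := mul_le_mul_of_nonneg_left (hc s hs) (by positivity)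
        _ = 1 := by field_simp)
  refine ⟨ξ, h1, ?_, h3⟩
  intro a t ht
  have hra := hr a
  have hex : ∃ k : ℕ, V a t ≤ 4^k * r a ^2 := ⟨K, (hVm a t n ht).trans (hKV a)⟩
  have hk1 := Nat.find_spec hex
  have hk2 : Nat.find hex ≤ K := Nat.find_min' hex ((hVm a t n ht).trans (hKV a))
  have hk3 : 4^(Nat.find hex) * r a ^2 ≤ r a ^2 + 4 * V a t := by
    rcases h : Nat.find hex with _ | k
    · have := hV0 a t
      simp only [pow_zero, one_mul]; linarith
    · have := Nat.find_min hex (show k < Nat.find hex by omega)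
      push Not at this
      have h0 : 0 ≤ r a ^2 := by positivity
      rw [pow_succ]; nlinarith
  have h4 := h2 (a, ⟨Nat.find hex, by omega⟩) t ht
  have h5 : ps (w' (a, ⟨Nat.find hex, by omega⟩)) ξ t = ps (w a) ξ t := by
    refine sum_congr rfl fun s hs => ?_
    simp only [hw']
    rw [if_pos ((hVm a (s+1) t (mem_range.1 hs)).trans hk1)]
  rw [h5] at h4
  simp only at h4
  calc ‖ps (w a) ξ t‖^2 ≤ (75 * (lam * (2^(Nat.find hex) * r a)))^2 :=
        pow_le_pow_left₀ (norm_nonneg _) h4 2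
    _ = (75 * lam)^2 * (4^(Nat.find hex) * r a ^2) := by rw [← e4]; ring
    _ ≤ _ := mul_le_mul_of_nonneg_left hk3 (by positivity)

end Vale.Agent.P262
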