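import Mathlib

namespace Vale.Agent.P262
open Finset
open scoped RealInnerProductSpace

variable {E : Type} [NormedAddCommGroup E] [InnerProductSpace ℝ E]

/-- one damping step -/
noncomputable def Ph (γ : ℝ) (u : E) : E →ₗ[ℝ] E where
  toFun x := x - (γ * ⟪u, x⟫) • u
  map_add' x y := by rw [inner_add_right, mul_add, add_smul]; abel
  map_smul' c x := by
    simp only [inner_smul_right, RingHom.id_apply, smul_sub, smul_smul]
    congr 2; ring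

lemma Ph_apply (γ : ℝ) (u x : E) : Ph γ u x = x - (γ * ⟪u, x⟫) • u := rfl

noncomputable def gg (γ : ℝ) (u : E) : ℝ := 2 * γ - γ^2 * ‖u‖^2

lemma inner_Ph (γ : ℝ) (u x y : E) : ⟪Ph γ u x, y⟫ = ⟪x, Ph γ u y⟫ := by
  simp only [Ph_apply, inner_sub_left, inner_sub_right, inner_smul_left, inner_smul_right,
    conj_trivial, real_inner_comm x u]
  ring

lemma norm_Ph (γ : ℝ) (u x : E) : ‖Ph γ u x‖^2 = ‖x‖^2 - gg γ u * ⟪u, x⟫^2 := by
  rw [Ph_apply, norm_sub_sq_real, inner_smul_right, norm_smul, mul_pow, Real.norm_eq_abs, sq_abs,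
    real_inner_comm u x, gg]
  ring

lemma gg_ge {γ : ℝ} {u : E} (h0 : 0 < γ) (h1 : γ ≤ 1) (hu : ‖u‖ ≤ 1) : γ ≤ gg γ u := by
  have : ‖u‖^2 ≤ 1 := pow_le_one₀ (norm_nonneg _) hu
  have h2 : γ^2 * ‖u‖^2 ≤ γ^2 := mul_le_of_le_one_right (by positivity) this
  unfold gg
  nlinarith

lemma gg_le (γ : ℝ) (u : E) : gg γ u ≤ 2 * γ := by
  unfold gg
  have : 0 ≤ γ^2 * ‖u‖^2 := by positivity
  linarith

noncomputable def TT (γ : ℝ) (v : ℕ → E) (a : ℕ) : ℕ → (E →ₗ[ℝ] E)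
  | 0 => LinearMap.id
  | b+1 => if a ≤ b then (Ph γ (v b)).comp (TT γ v a b) else LinearMap.id

noncomputable def TS (γ : ℝ) (v : ℕ → E) (a : ℕ) : ℕ → (E →ₗ[ℝ] E)
  | 0 => LinearMap.id
  | b+1 => if a ≤ b then (TS γ v a b).comp (Ph γ (v b)) else LinearMap.id

section
variable (γ : ℝ) (v : ℕ → E)

lemma TT_succ {a b : ℕ} (h : a ≤ b) (x : E) :
    TT γ v a (b+1) x = Ph γ (v b) (TT γ v a b x) := by simp [TT, h]

lemma TS_succ {a b : ℕ} (h : a ≤ b) (x : E) :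
    TS γ v a (b+1) x = TS γ v a b (Ph γ (v b) x) := by simp [TS, h]

lemma TT_self (a : ℕ) (x : E) : TT γ v a a x = x := by
  cases a with
  | zero => rfl
  | succ a => simp [TT]

lemma TS_self (a : ℕ) (x : E) : TS γ v a a x = x := by
  cases a with
  | zero => rfl
  | succ a => simp [TS]

lemma inner_TT (a b : ℕ) (x y : E) : ⟪TT γ v a b x, y⟫ = ⟪x, TS γ v a b y⟫ := by
  induction b generalizing y with
  | zero => rfl
  | succ b ih =>
    by_cases h : a ≤ b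
    · rw [TT_succ γ v h, TS_succ γ v h, inner_Ph, ih]
    · simp [TT, TS, h]

lemma TT_comp {a b c : ℕ} (h1 : a ≤ b) (h2 : b ≤ c) (x : E) :
    TT γ v b c (TT γ v a b x) = TT γ v a c x := by
  induction c, h2 using Nat.le_induction with
  | base => rw [TT_self]
  | succ c h ih => rw [TT_succ γ v h, TT_succ γ v (h1.trans h), ih]

lemma TS_comp {a b c : ℕ} (h1 : a ≤ b) (h2 : b ≤ c) (x : E) :
    TS γ v a b (TS γ v b c x) = TS γ v a c x := by
  induction c, h2 using Nat.le_induction generalizing x with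
  | base => rw [TS_self]
  | succ c h ih => rw [TS_succ γ v h, TS_succ γ v (h1.trans h), ih]

lemma TT_energy {a b e : ℕ} (h1 : a ≤ b) (h2 : b ≤ e) (x : E) :
    ‖TT γ v a b x‖^2 - ‖TT γ v a e x‖^2
      = ∑ r ∈ Ico b e, gg γ (v r) * ⟪v r, TT γ v a r x⟫^2 := by
  induction e, h2 using Nat.le_induction with
  | base => simp
  | succ e h ih => rw [sum_Ico_succ_top h, ← ih, TT_succ γ v (h1.trans h), norm_Ph]; ring

/-- amount of dimension killed between two times -/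
noncomputable def mk (a b : ℕ) : ℝ := ∑ r ∈ Ico a b, gg γ (v r) * ‖TS γ v a r (v r)‖^2

lemma mk_sub {a b e : ℕ} (h1 : a ≤ b) (h2 : b ≤ e) :
    mk γ v a e - mk γ v a b = ∑ r ∈ Ico b e, gg γ (v r) * ‖TS γ v a r (v r)‖^2 := by
  unfold mk
  rw [← sum_Ico_consecutive _ h1 h2]; ring

variable {γ v} (h0 : 0 < γ) (h1 : γ ≤ 1) (hv : ∀ s, ‖v s‖ ≤ 1)
include h0 h1 hv

lemma gg_pos (r : ℕ) : 0 ≤ gg γ (v r) := h0.le.trans (gg_ge h0 h1 (hv r))

lemma norm_TS_le (a b : ℕ) (x : E) : ‖TS γ v a b x‖^2 ≤ ‖x‖^2 := by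
  induction b generalizing x with
  | zero => exact le_rfl
  | succ b ih =>
    by_cases h : a ≤ b
    · rw [TS_succ γ v h]
      refine (ih _).trans ?_
      rw [norm_Ph]
      have := mul_nonneg (gg_pos h0 h1 hv b) (sq_nonneg ⟪v b, x⟫)
      linarith
    · simp [TS, h]

lemma Hbound {a b : ℕ} (h : a ≤ b) (e : E) :
    ∑ s ∈ Ico a b, ⟪TT γ v (s+1) b (v s), e⟫^2 ≤ (1/γ) * (‖e‖^2 - ‖TS γ v a b e‖^2) := by
  induction b, h using Nat.le_induction generalizing e with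
  | base => simp [TS_self]
  | succ b h ih =>
    rw [sum_Ico_succ_top h, TT_self, TS_succ γ v h]
    have h2 : ∑ s ∈ Ico a b, ⟪TT γ v (s+1) (b+1) (v s), e⟫^2
        = ∑ s ∈ Ico a b, ⟪TT γ v (s+1) b (v s), Ph γ (v b) e⟫^2 := by
      refine sum_congr rfl fun s hs => ?_
      rw [TT_succ γ v (by have := (mem_Ico.1 hs).2; omega), inner_Ph]
    rw [h2]
    have h3 := ih (Ph γ (v b) e)
    rw [norm_Ph] at h3
    have h4 := gg_ge h0 h1 (hv b)
    have h5 : ⟪v b, e⟫^2 ≤ (1/γ) * (gg γ (v b) * ⟪v b, e⟫^2) := by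
      rw [← mul_assoc]
      refine le_mul_of_one_le_left (sq_nonneg _) ?_
      rw [one_div, inv_mul_eq_div, one_le_div h0]; exact h4
    nlinarith

lemma mk_nonneg (a b : ℕ) : 0 ≤ mk γ v a b :=
  sum_nonneg fun r _ => mul_nonneg (gg_pos h0 h1 hv r) (sq_nonneg _)

lemma mk_step {a b : ℕ} (h : a ≤ b) : mk γ v a (b+1) ≤ mk γ v a b + 2 * γ := by
  unfold mk
  rw [sum_Ico_succ_top h]
  have h2 := norm_TS_le h0 h1 hv a b (v b)
  have h3 : ‖v b‖^2 ≤ 1 := pow_le_one₀ (norm_nonneg _) (hv b)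
  have h4 := gg_le γ (v b)
  have h5 := gg_pos h0 h1 hv b
  nlinarith

lemma mk_mono {a b e : ℕ} (h2 : a ≤ b) (h3 : b ≤ e) : mk γ v a b ≤ mk γ v a e := by
  have := mk_sub γ v h2 h3
  have : 0 ≤ ∑ r ∈ Ico b e, gg γ (v r) * ‖TS γ v a r (v r)‖^2 :=
    sum_nonneg fun r _ => mul_nonneg (gg_pos h0 h1 hv r) (sq_nonneg _)
  linarith

lemma prop_P1 {a b e : ℕ} (h2 : a ≤ b) (h3 : b ≤ e) :
    ∑ s ∈ range a, (‖TT γ v (s+1) b (v s)‖^2 - ‖TT γ v (s+1) e (v s)‖^2)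
      ≤ (1/γ) * (mk γ v a e - mk γ v a b) := by
  have h4 : ∀ s ∈ range a, ‖TT γ v (s+1) b (v s)‖^2 - ‖TT γ v (s+1) e (v s)‖^2
      = ∑ r ∈ Ico b e, gg γ (v r) * ⟪TT γ v (s+1) a (v s), TS γ v a r (v r)⟫^2 := by
    intro s hs
    have hs' : s + 1 ≤ a := mem_range.1 hs
    rw [TT_energy γ v (hs'.trans h2) h3]
    refine sum_congr rfl fun r hr => ?_
    rw [← TT_comp γ v hs' (h2.trans (mem_Ico.1 hr).1), real_inner_comm, inner_TT]
  rw [sum_congr rfl h4, sum_comm, mk_sub γ v h2 h3, mul_sum]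
  refine sum_le_sum fun r _ => ?_
  rw [← mul_sum, mul_left_comm]
  refine mul_le_mul_of_nonneg_left ?_ (gg_pos h0 h1 hv r)
  have := Hbound h0 h1 hv (Nat.zero_le a) (TS γ v a r (v r))
  rw [← range_eq_Ico] at this
  refine this.trans (mul_le_mul_of_nonneg_left ?_ (by positivity))
  have : 0 ≤ ‖TS γ v 0 a (TS γ v a r (v r))‖^2 := by positivity
  linarith

lemma prop_P2a {s a b e : ℕ} (hs : s < a) (h2 : a ≤ b) (h3 : b ≤ e) :
    ‖TT γ v (s+1) b (v s)‖^2 - ‖TT γ v (s+1) e (v s)‖^2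
      ≤ (mk γ v a e - mk γ v a b) * ‖TT γ v (s+1) a (v s)‖^2 := by
  rw [TT_energy γ v (by omega) h3, mk_sub γ v h2 h3, sum_mul]
  refine sum_le_sum fun r hr => ?_
  rw [← TT_comp γ v (show s + 1 ≤ a by omega) (h2.trans (mem_Ico.1 hr).1), real_inner_comm,
    inner_TT, mul_assoc]
  refine mul_le_mul_of_nonneg_left ?_ (gg_pos h0 h1 hv r)
  have := abs_real_inner_le_norm (TT γ v (s+1) a (v s)) (TS γ v a r (v r))
  rw [← sq_abs, mul_comm, ← mul_pow]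
  exact pow_le_pow_left₀ (abs_nonneg _) this 2

end

section
variable {d : ℕ} (B : OrthonormalBasis (Fin d) ℝ E)
include B

lemma norm_sq_basis (x : E) : ‖x‖^2 = ∑ i, ⟪x, B i⟫^2 := by
  rw [← B.sum_sq_norm_inner_left x]
  simp

variable (γ : ℝ) (v : ℕ → E)

lemma fro_TT {a b : ℕ} (h : a ≤ b) : ∑ i, ‖TT γ v a b (B i)‖^2 = d - mk γ v a b := by
  have h1 : ∀ i, ‖TT γ v a b (B i)‖^2
      = 1 - ∑ r ∈ Ico a b, gg γ (v r) * ⟪TS γ v a r (v r), B i⟫^2 := by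
    intro i
    have := TT_energy γ v (le_refl a) h (B i)
    rw [TT_self, B.orthonormal.1 i] at this
    have e : ∀ r, ⟪v r, TT γ v a r (B i)⟫ = ⟪TS γ v a r (v r), B i⟫ := fun r => by
      rw [real_inner_comm, inner_TT, real_inner_comm]
    simp only [e] at this
    linarith
  simp only [h1, sum_sub_distrib]
  rw [sum_comm]
  simp only [← mul_sum, ← norm_sq_basis B]
  simp [mk]

lemma fro_TS {a b : ℕ} (h : a ≤ b) : ∑ i, ‖TS γ v a b (B i)‖^2 = d - mk γ v a b := by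
  rw [← fro_TT B γ v h]
  simp only [norm_sq_basis B]
  rw [sum_comm]
  refine sum_congr rfl fun i _ => sum_congr rfl fun j _ => ?_
  rw [inner_TT, real_inner_comm]

lemma mk_le {a b : ℕ} (h : a ≤ b) : mk γ v a b ≤ d := by
  have := fro_TT B γ v h
  have h2 : 0 ≤ ∑ i, ‖TT γ v a b (B i)‖^2 := sum_nonneg fun i _ => by positivity
  linarith

variable {γ v} (h0 : 0 < γ) (h1 : γ ≤ 1) (hv : ∀ s, ‖v s‖ ≤ 1)
include h0 h1 hv

lemma mk_anti {a' a b : ℕ} (h2 : a' ≤ a) (h3 : a ≤ b) : mk γ v a b ≤ mk γ v a' b := by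
  have e1 := fro_TS B γ v h3
  have e2 := fro_TS B γ v (h2.trans h3)
  have : ∑ i, ‖TS γ v a' b (B i)‖^2 ≤ ∑ i, ‖TS γ v a b (B i)‖^2 := by
    refine sum_le_sum fun i _ => ?_
    rw [← TS_comp γ v h2 h3]
    exact norm_TS_le h0 h1 hv _ _ _
  linarith

lemma prop_P2b {a' a e : ℕ} (h2 : a' ≤ a) (h3 : a ≤ e) :
    ∑ s ∈ Ico a' a, ‖TT γ v (s+1) e (v s)‖^2 ≤ (1/γ) * (mk γ v a' e - mk γ v a e) := by
  have h4 : ∀ s ∈ Ico a' a, ‖TT γ v (s+1) e (v s)‖^2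
      = ∑ i, ⟪TT γ v (s+1) a (v s), TS γ v a e (B i)⟫^2 := by
    intro s hs
    rw [norm_sq_basis B, ← TT_comp γ v (show s + 1 ≤ a from (mem_Ico.1 hs).2) h3]
    simp only [inner_TT γ v a e]
  rw [sum_congr rfl h4, sum_comm]
  refine (sum_le_sum fun i _ => Hbound h0 h1 hv h2 _).trans (le_of_eq ?_)
  rw [← mul_sum, sum_sub_distrib, fro_TS B γ v h3]
  simp only [TS_comp γ v h2 h3]
  rw [fro_TS B γ v (h2.trans h3)]
  ring

end

end Vale.Agent.P262
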