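import Vale.Agent.P262.Split

namespace Vale.Agent.P262
open Finset

noncomputable def cl (u : ℝ) : ℝ := max 0 (min 1 u)

lemma cl_nonneg (u : ℝ) : 0 ≤ cl u := le_max_left _ _
lemma cl_le_one (u : ℝ) : cl u ≤ 1 := max_le zero_le_one (min_le_left _ _)
lemma cl_mono {u v : ℝ} (h : u ≤ v) : cl u ≤ cl v :=
  max_le_max le_rfl (min_le_min le_rfl h)

lemma sum_cl (K : ℕ) (u : ℝ) : ∑ k ∈ range K, cl (u - k) = max 0 (min (K:ℝ) u) := by
  induction K with
  | zero => simp
  | succ K ih =>
    rw [sum_range_succ, ih]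
    have : (0:ℝ) ≤ K := Nat.cast_nonneg K
    push_cast
    simp only [cl, max_def, min_def]
    split_ifs <;> linarith

lemma sum_cl_sq_aux (K : ℕ) {u v : ℝ} (h : v ≤ u) :
    ∑ k ∈ range K, (cl (u - k) - cl (v - k))^2 ≤ (u - v)^2 := by
  have h1 : ∀ k ∈ range K, 0 ≤ cl (u - k) - cl (v - k) := fun k _ =>
    sub_nonneg.2 (cl_mono (by linarith))
  refine (sum_sq_le_sq_sum_of_nonneg h1).trans ?_
  have h2 : 0 ≤ ∑ k ∈ range K, (cl (u - k) - cl (v - k)) := sum_nonneg h1
  have h3 : ∑ k ∈ range K, (cl (u - k) - cl (v - k)) ≤ u - v := by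
    rw [sum_sub_distrib, sum_cl, sum_cl]
    simp only [max_def, min_def]
    split_ifs <;> linarith
  exact pow_le_pow_left₀ h2 h3 2

lemma sum_cl_sq (K : ℕ) (u v : ℝ) :
    ∑ k ∈ range K, (cl (u - k) - cl (v - k))^2 ≤ (u - v)^2 := by
  rcases le_total v u with h | h
  · exact sum_cl_sq_aux K h
  · have := sum_cl_sq_aux K h
    calc _ = ∑ k ∈ range K, (cl (v - k) - cl (u - k))^2 := sum_congr rfl fun k _ => by ring
      _ ≤ (v - u)^2 := this
      _ = _ := by ring

noncomputable def ph (b : Bool) (y : ℝ) : ℝ :=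
  if b then 2 * y / (1 + y^2) else (1 - y^2) / (1 + y^2)

lemma ph_nonneg (b : Bool) {y : ℝ} (h0 : 0 ≤ y) (h1 : y ≤ 1) : 0 ≤ ph b y := by
  unfold ph
  split_ifs
  · positivity
  · exact div_nonneg (by nlinarith) (by positivity)

lemma ph_aff (y z : ℝ) :
    ph true y * ph true z + ph false y * ph false z
      = 1 - 2 * (y - z)^2 / ((1 + y^2) * (1 + z^2)) := by
  simp only [ph, if_true, Bool.false_eq_true, if_false]
  have h1 : (1 + y^2) ≠ 0 := by positivity
  have h2 : (1 + z^2) ≠ 0 := by positivity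
  field_simp
  ring

lemma ph_aff_ge (y z : ℝ) :
    1 - 2 * (y - z)^2 ≤ ph true y * ph true z + ph false y * ph false z := by
  rw [ph_aff]
  have h1 : (1:ℝ) ≤ (1 + y^2) * (1 + z^2) := by nlinarith [sq_nonneg y, sq_nonneg z, sq_nonneg (y*z)]
  have : 2 * (y - z)^2 / ((1 + y^2) * (1 + z^2)) ≤ 2 * (y - z)^2 :=
    div_le_self (by positivity) h1
  linarith

lemma ph_sq (y : ℝ) : ph true y ^ 2 + ph false y ^ 2 = 1 := by
  have := ph_aff y y
  simp only [sub_self] at this
  rw [sq, sq, this]; simp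

lemma ph_true_sq_le {y : ℝ} (h0 : 0 ≤ y) (h1 : y ≤ 1) : ph true y ^ 2 ≤ 4 * y := by
  have h2 : ph true y ≤ 2 * y := by
    simp only [ph, if_true]
    exact div_le_self (by positivity) (by nlinarith)
  have h3 := ph_nonneg true h0 h1
  nlinarith

lemma prod_ge_one_sub {I : Type} (s : Finset I) (a t : I → ℝ) (ha : ∀ i, 0 ≤ a i)
    (ht : ∀ i, 0 ≤ t i) (h : ∀ i, 1 - t i ≤ a i) : 1 - ∑ i ∈ s, t i ≤ ∏ i ∈ s, a i := by
  classical
  induction s using Finset.induction_on with
  | empty => simp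
  | insert j s hj ih =>
    rw [sum_insert hj, prod_insert hj]
    have h0 : 0 ≤ ∏ i ∈ s, a i := prod_nonneg fun i _ => ha i
    have h1 : 0 ≤ ∑ i ∈ s, t i := sum_nonneg fun i _ => ht i
    have := ha j
    have := ht j
    have := h j
    by_cases h2 : t j ≤ 1
    · nlinarith
    · nlinarith

lemma sum_prod_bool {I : Type} [Fintype I] [DecidableEq I] (g : I → Bool → ℝ) :
    ∑ ω : I → Bool, ∏ i, g i (ω i) = ∏ i, (g i true + g i false) := by
  have := Finset.prod_univ_sum (fun _ : I => (univ : Finset Bool)) g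
  rw [Fintype.piFinset_univ] at this
  rw [← this]
  simp

lemma min_sq_ge {a b : ℝ} (ha : 0 ≤ a) (hb : 0 ≤ b) :
    a * b - a^2 / 10 - 5/2 * (a - b)^2 ≤ min (a^2) (b^2) := by
  refine le_min ?_ ?_
  · nlinarith [sq_nonneg (a / 5 - (b - a))]
  · nlinarith [sq_nonneg (b / 5 - (a - b)), sq_nonneg (a - b), mul_nonneg ha hb,
      sq_nonneg (a / 5 - (a - b))]

lemma overlap {I : Type} [Fintype I] [DecidableEq I] (y z : I → ℝ)
    (hy0 : ∀ i, 0 ≤ y i) (hy1 : ∀ i, y i ≤ 1) (hz0 : ∀ i, 0 ≤ z i) (hz1 : ∀ i, z i ≤ 1)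
    (h : ∑ i, (y i - z i)^2 ≤ 1/120) :
    4/5 ≤ ∑ ω : I → Bool, min ((∏ i, ph (ω i) (y i))^2) ((∏ i, ph (ω i) (z i))^2) := by
  have hn : ∀ y : I → ℝ, ∑ ω : I → Bool, (∏ i, ph (ω i) (y i))^2 = 1 := by
    intro y
    simp only [← prod_pow]
    rw [sum_prod_bool (fun i b => ph b (y i) ^ 2)]
    simp [ph_sq]
  have ha : 1 - 1/60 ≤ ∑ ω : I → Bool, (∏ i, ph (ω i) (y i)) * (∏ i, ph (ω i) (z i)) := by
    simp only [← prod_mul_distrib]
    rw [sum_prod_bool (fun i b => ph b (y i) * ph b (z i))]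
    refine le_trans ?_ (prod_ge_one_sub univ _ (fun i => 2 * (y i - z i)^2) ?_ ?_ ?_)
    · rw [← mul_sum]; linarith
    · intro i
      exact add_nonneg (mul_nonneg (ph_nonneg _ (hy0 i) (hy1 i)) (ph_nonneg _ (hz0 i) (hz1 i)))
        (mul_nonneg (ph_nonneg _ (hy0 i) (hy1 i)) (ph_nonneg _ (hz0 i) (hz1 i)))
    · intro i; positivity
    · intro i; exact ph_aff_ge _ _
  refine le_trans ?_ (sum_le_sum fun ω _ => min_sq_ge
    (prod_nonneg fun i _ => ph_nonneg _ (hy0 i) (hy1 i))
    (prod_nonneg fun i _ => ph_nonneg _ (hz0 i) (hz1 i)))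
  have e : ∀ a b : ℝ, a * b - a^2 / 10 - 5/2 * (a - b)^2
      = 6 * (a * b) - 13/5 * a^2 - 5/2 * b^2 := fun a b => by ring
  simp only [e, sum_sub_distrib, ← mul_sum, hn]
  linarith

lemma supp_bound (K : ℕ) (u : ℝ) (hu : u ≤ K) (b : ℕ → Bool)
    (h : ∀ k < K, ph (b k) (cl (u - k)) ≠ 0) :
    u ≤ 1 + ∑ k ∈ range K, (if b k then (1:ℝ) else 0) := by
  have key : ∀ m ≤ K, min u m ≤ ∑ k ∈ range m, (if b k then (1:ℝ) else 0) ∨
      u ≤ 1 + ∑ k ∈ range m, (if b k then (1:ℝ) else 0) := by
    intro m hm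
    induction m with
    | zero => left; simp
    | succ m ih =>
      rw [sum_range_succ]
      rcases ih (by omega) with h1 | h1
      · by_cases hb : b m = true
        · left
          rw [if_pos hb]
          push_cast
          simp only [min_def] at h1 ⊢
          split_ifs at h1 ⊢ <;> linarith
        · right
          rw [if_neg hb]
          have h2 := h m (by omega)
          have h3 : u - m < 1 := by
            by_contra h4
            have : cl (u - m) = 1 := by
              unfold cl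
              rw [min_eq_left (by linarith)]; simp
            rw [this] at h2
            simp [ph, hb] at h2
          simp only [min_def] at h1
          split_ifs at h1 <;> linarith
      · right
        split_ifs <;> linarith
  rcases key K le_rfl with h1 | h1
  · rw [min_eq_left hu] at h1; linarith
  · exact h1

theorem labels (c : ℕ → (ℕ → ℝ) → ℝ) (n : ℕ) {ι : Type} [Fintype ι] (f : ι → Finset ℕ → ℝ)
    (hf0 : ∀ a x, 0 ≤ f a x)
    (hL : ∀ s < n, ∀ x, s ∉ x → ∑ a, (f a x - f a (insert s x))^2 ≤ 1/120) :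
    ∃ w : Finset ℕ → ℝ, (∀ x, 0 ≤ w x) ∧ ∑ x ∈ (range n).powerset, w x = 1 ∧
      (∀ a, ∑ x ∈ (range n).powerset, w x * f a x
        ≤ 1 + 4 * ((∑ x ∈ (range n).powerset, f a x) / 2^n)) ∧
      ∀ t < n, ∃ k : ℤ, (∑ x ∈ (range n).powerset, w x * cv x t) =
        c t (fun s => if s < t then ∑ x ∈ (range n).powerset, w x * cv x s else 0) + 2 * k := by
  classical
  set K : ℕ := ⌈∑ a, ∑ x ∈ (range n).powerset, f a x⌉₊ with hK
  have hfK : ∀ a, ∀ x ∈ (range n).powerset, f a x ≤ K := by
    intro a x hx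
    refine le_trans ?_ (Nat.le_ceil _)
    refine le_trans (single_le_sum (f := fun x => f a x) (fun x _ => hf0 a x) hx) ?_
    exact single_le_sum (f := fun a => ∑ x ∈ (range n).powerset, f a x)
      (fun a _ => sum_nonneg fun x _ => hf0 a x) (mem_univ a)
  set y : Finset ℕ → ι × Fin K → ℝ := fun x i => cl (f i.1 x - (i.2 : ℕ)) with hy
  set p : Finset ℕ → (ι × Fin K → Bool) → ℝ := fun x ω =>
    (1 / 2^n) * (∏ i, ph (ω i) (y x i))^2 with hp
  have hp0 : ∀ x ω, 0 ≤ p x ω := fun x ω => by simp only [hp]; positivity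
  have hov : ∀ s < n, 2/5 ≤ ∑ x ∈ ((range n).erase s).powerset, ∑ ω,
      min (p x ω) (p (insert s x) ω) := by
    intro s hs
    have h1 : ∀ x ∈ ((range n).erase s).powerset, (1 / 2^n) * (4/5 : ℝ) ≤ ∑ ω,
        min (p x ω) (p (insert s x) ω) := by
      intro x hx
      have hsx : s ∉ x := fun h => by simpa using mem_powerset.1 hx h
      have h2 := overlap (y x) (y (insert s x)) (fun i => cl_nonneg _) (fun i => cl_le_one _)
        (fun i => cl_nonneg _) (fun i => cl_le_one _) (by
          rw [Fintype.sum_prod_type]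
          refine le_trans (sum_le_sum fun a _ => ?_) (hL s hs x hsx)
          simp only [hy]
          rw [Fin.sum_univ_eq_sum_range
            (fun k => (cl (f a x - (k:ℕ)) - cl (f a (insert s x) - (k:ℕ)))^2) K]
          exact sum_cl_sq K _ _)
      simp only [hp]
      simp only [← mul_min_of_nonneg _ _ (show (0:ℝ) ≤ 1 / 2^n by positivity), ← mul_sum]
      exact mul_le_mul_of_nonneg_left h2 (by positivity)
    refine le_trans ?_ (sum_le_sum h1)
    rw [sum_const, card_powerset, card_erase_of_mem (mem_range.2 hs), card_range, nsmul_eq_mul]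
    obtain ⟨m, rfl⟩ : ∃ m, n = m + 1 := ⟨n - 1, by omega⟩
    simp only [Nat.add_sub_cancel]
    push_cast
    rw [pow_succ]
    apply le_of_eq
    field_simp
    norm_num
  obtain ⟨q, hq0, hqs, hqm, hqc⟩ := split c n _ p hp0 hov
  have hmarg : ∀ x, ∑ ω, p x ω = 1 / 2^n := by
    intro x
    simp only [hp, ← mul_sum, ← prod_pow]
    rw [sum_prod_bool (fun i b => ph b (y x i) ^ 2)]
    simp [ph_sq]
  have htot : ∑ x ∈ (range n).powerset, ∑ ω, p x ω = 1 := by
    simp only [hmarg]
    rw [sum_const, card_powerset, card_range, nsmul_eq_mul]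
    push_cast
    field_simp
  have hind : ∀ x i0, ∑ ω, p x ω * (if ω i0 then (1:ℝ) else 0) ≤ (1 / 2^n) * (4 * y x i0) := by
    intro x i0
    have h1 : ∀ ω : ι × Fin K → Bool, p x ω * (if ω i0 then (1:ℝ) else 0) = (1 / 2^n) *
        ∏ i, (ph (ω i) (y x i) ^ 2 * (if i = i0 then (if ω i then (1:ℝ) else 0) else 1)) := by
      intro ω
      simp only [hp]
      rw [prod_mul_distrib, prod_pow, prod_ite_eq' univ i0]
      simp only [mem_univ, if_true]
      ring
    simp only [h1, ← mul_sum]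
    refine mul_le_mul_of_nonneg_left ?_ (by positivity)
    rw [sum_prod_bool (fun i b => ph b (y x i) ^ 2 *
      (if i = i0 then (if b then (1:ℝ) else 0) else 1))]
    have h2 : ∀ i, (ph true (y x i) ^ 2 * (if i = i0 then (if true then (1:ℝ) else 0) else 1) +
        ph false (y x i) ^ 2 * (if i = i0 then (if false then (1:ℝ) else 0) else 1))
        = if i = i0 then ph true (y x i) ^ 2 else 1 := by
      intro i
      by_cases h : i = i0
      · simp [h]
      · simp [h, ph_sq]
    rw [prod_congr rfl (fun i _ => h2 i), prod_ite_eq' univ i0]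
    simp only [mem_univ, if_true]
    exact ph_true_sq_le (cl_nonneg _) (cl_le_one _)
  have hmean : ∀ s, mean n q s = ∑ x ∈ (range n).powerset, (∑ ω, q x ω) * cv x s := by
    intro s
    unfold mean
    simp only [sum_mul]
  refine ⟨fun x => ∑ ω, q x ω, fun x => sum_nonneg fun ω _ => hq0 x ω, ?_, ?_, ?_⟩
  · rw [sum_comm]
    simp only [hqm]
    rw [sum_comm, htot]
  · intro a
    set G : (ι × Fin K → Bool) → ℝ := fun ω => 1 + ∑ k : Fin K, (if ω (a, k) then (1:ℝ) else 0)
      with hG
    have h1 : ∀ x ∈ (range n).powerset, ∀ ω, q x ω * f a x ≤ q x ω * G ω := by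
      intro x hx ω
      by_cases h0 : p x ω = 0
      · simp [hqs x ω h0]
      · refine mul_le_mul_of_nonneg_left ?_ (hq0 x ω)
        have h2 := supp_bound K (f a x) (hfK a x hx)
          (fun k => if h : k < K then ω (a, ⟨k, h⟩) else false) (by
            intro k hk h3
            apply h0
            simp only [hp]
            rw [prod_eq_zero (mem_univ (a, (⟨k, hk⟩ : Fin K)))]
            · simp
            · simpa [hk, hy] using h3)
        refine h2.trans (le_of_eq ?_)
        simp only [hG]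
        rw [← Fin.sum_univ_eq_sum_range
          (fun k => if (if h : k < K then ω (a, ⟨k, h⟩) else false) = true then (1:ℝ) else 0) K]
        simp
    calc ∑ x ∈ (range n).powerset, (∑ ω, q x ω) * f a x
        ≤ ∑ x ∈ (range n).powerset, ∑ ω, q x ω * G ω := by
          refine sum_le_sum fun x hx => ?_
          rw [sum_mul]
          exact sum_le_sum fun ω _ => h1 x hx ω
      _ = ∑ x ∈ (range n).powerset, ∑ ω, p x ω * G ω := by
          rw [sum_comm, sum_comm (s := (range n).powerset)]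
          simp only [← sum_mul, hqm]
      _ = 1 + ∑ x ∈ (range n).powerset, ∑ k : Fin K, ∑ ω,
            p x ω * (if ω (a, k) then (1:ℝ) else 0) := by
          simp only [hG, mul_add, mul_one, sum_add_distrib, htot, mul_sum]
          congr 1
          exact sum_congr rfl fun x _ => sum_comm
      _ ≤ 1 + ∑ x ∈ (range n).powerset, (1 / 2^n) * (4 * f a x) := by
          refine add_le_add le_rfl (sum_le_sum fun x _ => ?_)
          refine (sum_le_sum fun k _ => hind x (a, k)).trans ?_
          rw [← mul_sum, ← mul_sum]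
          refine mul_le_mul_of_nonneg_left (mul_le_mul_of_nonneg_left ?_ (by norm_num))
            (by positivity)
          simp only [hy]
          rw [Fin.sum_univ_eq_sum_range (fun k => cl (f a x - (k:ℕ))) K, sum_cl]
          exact max_le (hf0 a x) (min_le_right _ _)
      _ = _ := by
          rw [← mul_sum, ← mul_sum]; ring
  · intro t ht
    obtain ⟨k, hk⟩ := hqc t ht
    refine ⟨k, ?_⟩
    simp only [hmean] at hk
    exact hk

end Vale.Agent.P262
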