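import Vale.Agent.P262.Doob
import Vale.Agent.P262.Dyn
import Vale.Agent.P262.Decomp

namespace Vale.Agent.P262
open Finset
open scoped RealInnerProductSpace

noncomputable def colv (M : ℕ) (K : ℕ → ℕ → ℝ) (P : ℕ → ℕ → Prop) (s : ℕ) :
    EuclideanSpace ℝ (Fin M) := WithLp.toLp 2 fun r => it (P r s) (K r s)

lemma it_sq (P : Prop) (x : ℝ) : it P x ^ 2 = it P (x ^ 2) := by
  by_cases h : P
  · rw [it_pos h, it_pos h]
  · rw [it_neg h, it_neg h]; simp

lemma it_mul (P : Prop) (x y : ℝ) : y * it P x = it P (x * y) := by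
  by_cases h : P
  · rw [it_pos h, it_pos h, mul_comm]
  · rw [it_neg h, it_neg h]; simp

lemma norm_colv (M : ℕ) (K : ℕ → ℕ → ℝ) (P : ℕ → ℕ → Prop) (s : ℕ) :
    ‖colv M K P s‖^2 = ∑ r ∈ range M, it (P r s) (K r s ^ 2) := by
  rw [EuclideanSpace.real_norm_sq_eq, ← Fin.sum_univ_eq_sum_range (fun r => it (P r s) (K r s ^ 2))]
  simp [colv, it_sq]

lemma norm_ps_colv (M : ℕ) (K : ℕ → ℕ → ℝ) (P : ℕ → ℕ → Prop) (ξ : ℕ → ℝ) (τ : ℕ) :
    ‖ps (colv M K P) ξ τ‖^2 = QQ M K ξ P τ := by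
  rw [EuclideanSpace.real_norm_sq_eq, QQ, ← Fin.sum_univ_eq_sum_range (fun r => rv K ξ P τ r ^ 2)]
  refine sum_congr rfl fun r _ => ?_
  congr 1
  simp [ps, colv, rv, it_mul]

def msk (N D : ℕ) (En m : ℕ → ℕ → ℝ) (k l j a : ℕ) : ℕ → ℕ → Prop :=
  match k with
  | 0 => mNear N D En m j a
  | 1 => mFar N D En m j a
  | 2 => mL1 N D m j a
  | 3 => mL2 N D m l j a
  | 4 => fun r _ => j = 0 ∧ a = 0 ∧ N ≤ r
  | _ => fun r s => j = 0 ∧ r = a ∧ s < r ∧ r < N

theorem select {N D : ℕ} {h : ℝ} {K En m : ℕ → ℕ → ℝ} (H : Hyp N D h K En m) (M : ℕ)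
    (hM : N ≤ M) (hinf : ∀ s < N, ∑ r ∈ Ico N M, K r s ^ 2 ≤ 1) (c : ℕ → (ℕ → ℝ) → ℝ) :
    ∃ ξ : ℕ → ℝ, (∀ s, |ξ s| ≤ 5/2) ∧
      (∀ k < 6, ∀ l < D, ∀ j < D, ∀ a < N, ∀ τ ≤ N, QQ M K ξ (msk N D En m k l j a) τ ≤
        455625 * ((5/4)^l + 4 * ms M K (msk N D En m k l j a) τ)) ∧
      ∀ t < N, ∃ k : ℤ, ξ t = c t (fun s => if s < t then ξ s else 0) + 2 * k := by
  obtain ⟨ξ, h1, h2, h3⟩ := contracts' c N (ι := Fin D × Fin 6 × Fin D × Fin N)
    (fun i => colv M K (msk N D En m i.2.1 i.1 i.2.2.1 i.2.2.2))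
    (fun i => Real.sqrt ((5/4)^(i.1:ℕ))) (fun i => Real.sqrt_pos.2 (by positivity)) 9 (by norm_num)
    (by
      intro s hs
      have e : ∀ l : ℕ, Real.sqrt ((5/4:ℝ)^l) ^ 2 = (5/4)^l := fun l => Real.sq_sqrt (by positivity)
      simp only [Fintype.sum_prod_type, e, norm_colv, ← sum_div]
      have key : ∀ l : ℕ, ∑ k : Fin 6, ∑ j : Fin D, ∑ a : Fin N, ∑ r ∈ range M,
          it (msk N D En m k l j a r s) (K r s ^ 2) ≤ 7 := by
        intro l
        have conv : ∀ k : ℕ, ∑ j : Fin D, ∑ a : Fin N, ∑ r ∈ range M,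
            it (msk N D En m k l j a r s) (K r s ^ 2) = ∑ j ∈ range D, ∑ a ∈ range N,
            ∑ r ∈ range M, it (msk N D En m k l j a r s) (K r s ^ 2) := by
          intro k
          rw [← Fin.sum_univ_eq_sum_range (fun j => ∑ a ∈ range N,
            ∑ r ∈ range M, it (msk N D En m k l j a r s) (K r s ^ 2))]
          refine sum_congr rfl fun j _ => ?_
          rw [← Fin.sum_univ_eq_sum_range (fun a =>
            ∑ r ∈ range M, it (msk N D En m k l j a r s) (K r s ^ 2))]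
        simp only [conv]
        rw [Fin.sum_univ_eq_sum_range (fun k => ∑ j ∈ range D, ∑ a ∈ range N,
            ∑ r ∈ range M, it (msk N D En m k l j a r s) (K r s ^ 2)) 6]
        simp only [sum_range_succ (n := 5), sum_range_succ (n := 4), sum_range_succ (n := 3),
          sum_range_succ (n := 2), sum_range_succ (n := 1), sum_range_one, msk]
        have c0 := cost_near H M s hs hM
        have c1 := cost_far H M s hs
        have c2 := cost_L1 H M s hs
        have c3 := cost_L2 H M s l hs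
        have c4 : ∑ j ∈ range D, ∑ a ∈ range N, ∑ r ∈ range M,
            it (j = 0 ∧ a = 0 ∧ N ≤ r) (K r s ^ 2) ≤ 1 := by
          rw [sum_eq_single 0, sum_eq_single 0]
          · refine le_trans ?_ (hinf s hs)
            rw [it_sum]
            refine sum_le_sum_of_subset_of_nonneg (fun r hr => ?_) fun r _ _ => sq_nonneg _
            simp only [mem_filter, mem_range] at hr
            exact mem_Ico.2 ⟨hr.2.2.2, hr.1⟩
          · intro a _ ha
            exact sum_eq_zero fun r _ => it_neg (fun h => ha h.2.1) _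
          · intro h; exact absurd (mem_range.2 (by omega)) h
          · intro j _ hj
            exact sum_eq_zero fun a _ => sum_eq_zero fun r _ => it_neg (fun h => hj h.1) _
          · intro h; exact absurd (mem_range.2 H.D_pos) h
        have c5 := uniq_sum H M s hs (fun j a r => j = 0 ∧ r = a ∧ s < r ∧ r < N)
          (fun j _ a r h => h.2.2) (fun j _ j' _ a a' r h h' => by omega)
        linarith
      calc _ ≤ ∑ l : Fin D, (4/5:ℝ)^(l:ℕ) * 7 := by
            refine sum_le_sum fun l _ => ?_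
            rw [div_le_iff₀ (by positivity), mul_right_comm, ← mul_pow]
            norm_num
            exact key l
        _ ≤ _ := by
            rw [← sum_mul, Fin.sum_univ_eq_sum_range (fun l => (4/5:ℝ)^l) D]
            have := geom_le D (4/5) (by norm_num) (by norm_num)
            linarith)
  refine ⟨ξ, h1, ?_, h3⟩
  intro k hk l hl j hj a ha τ hτ
  have := h2 (⟨l, hl⟩, ⟨k, hk⟩, ⟨j, hj⟩, ⟨a, ha⟩) τ hτ
  simp only [norm_ps_colv, norm_colv] at this
  rw [Real.sq_sqrt (by positivity)] at this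
  refine this.trans (le_of_eq ?_)
  unfold ms
  norm_num

theorem balance : ∃ C : ℝ, 0 ≤ C ∧ ∀ (d N : ℕ) (v : ℕ → EuclideanSpace ℝ (Fin d)),
    (∀ s, ‖v s‖ ≤ 1) → ∃ ε : ℕ → ℝ, (∀ s, ε s = 1 ∨ ε s = -1) ∧
      ∀ t ≤ N, ‖∑ s ∈ range t, ε s • v s‖^2 ≤ C * (d + 1) := by
  obtain ⟨γ, hγ⟩ : ∃ γ : ℝ, γ = 1 / 20000000 := ⟨_, rfl⟩
  obtain ⟨A, hA⟩ : ∃ A : ℝ, A = 455625 := ⟨_, rfl⟩
  have h0 : 0 < γ := by rw [hγ]; norm_num
  have h1 : γ ≤ 1 := by rw [hγ]; norm_num
  have hA0 : 0 ≤ A := by rw [hA]; norm_num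
  obtain ⟨h, hh⟩ : ∃ h : ℝ, h = 1 / γ := ⟨_, rfl⟩
  have hh0 : 0 ≤ h := by rw [hh]; positivity
  refine ⟨A * (1000 * (1 + h)), by positivity, fun d N v hv => ?_⟩
  set B := EuclideanSpace.basisFun (Fin d) ℝ with hB
  set y : ℕ → ℕ → EuclideanSpace ℝ (Fin d) := fun s t => TT γ v (s+1) t (v s) with hy
  set K : ℕ → ℕ → ℝ := fun r s => if r < N then Real.sqrt (gg γ (v r)) * ⟪v r, y s r⟫
    else if hr : r - N < d then ⟪y s N, B ⟨r - N, hr⟩⟫ else 0 with hK
  have hgg := gg_pos h0 h1 hv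
  have hK1 : ∀ r < N, ∀ s, K r s = Real.sqrt (gg γ (v r)) * ⟪v r, y s r⟫ := fun r hr s => by
    simp only [hK, if_pos hr]
  have hK2 : ∀ (F : ℕ → ℝ → ℝ) (s : ℕ → ℕ), ∑ r ∈ Ico N (N + d), F r (K r (s r))
      = ∑ i : Fin d, F (N + i) ⟪y (s (N + i)) N, B i⟫ := by
    intro F s
    rw [sum_Ico_eq_sum_range, Nat.add_sub_cancel_left,
      ← Fin.sum_univ_eq_sum_range (fun i => F (N + i) (K (N + i) (s (N + i))))]
    refine sum_congr rfl fun i _ => ?_
    simp [hK]
  have H : Hyp N (8 * d + 1) h K (fun s t => ‖y s t‖^2) (mk γ v) :=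
    { D_pos := by omega
      h_nonneg := hh0
      en_tel := by
        intro s b e hs hb he
        simp only [hy]
        rw [TT_energy γ v hs hb]
        refine sum_congr rfl fun r hr => ?_
        rw [hK1 r (by have := (mem_Ico.1 hr).2; omega), mul_pow, Real.sq_sqrt (hgg r)]
      en_nonneg := fun s b => by positivity
      en_one := fun s => by
        simp only [hy, TT_self]
        exact pow_le_one₀ (norm_nonneg _) (hv s)
      m_nonneg := mk_nonneg h0 h1 hv
      m_self := fun a => by simp [mk]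
      m_step := fun a b hab => by
        have := mk_step h0 h1 hv hab
        rw [hγ] at this ⊢
        linarith
      m_top := fun a b hab => by
        have := mk_le B γ v hab
        push_cast
        linarith
      m_mono := fun a b e => mk_mono h0 h1 hv
      m_anti := fun a' a b => mk_anti B h0 h1 hv
      P1 := fun a b e h2 h3 => by rw [hh]; exact prop_P1 h0 h1 hv h2 h3
      P2a := fun s a b e => prop_P2a h0 h1 hv
      P2b := fun a' a e h2 h3 => by rw [hh]; exact prop_P2b B h0 h1 hv h2 h3 }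
  have hcol : ∀ s, ∑ r ∈ Ico N (N + d), K r s ^ 2 = ‖y s N‖^2 := by
    intro s
    rw [hK2 (fun _ x => x ^ 2) (fun _ => s), norm_sq_basis B]
  obtain ⟨ξ, hξ1, hξ2, hξ3⟩ := select H (N + d) (by omega) (by
      intro s hs
      rw [hcol]
      have e1 := H.en_tel s (s+1) N (by omega) (by omega) le_rfl
      have e2 := H.en_one s
      have e3 : 0 ≤ ∑ r ∈ Ico (s+1) N, K r s ^ 2 := sum_nonneg fun r _ => sq_nonneg _
      linarith)
    (fun t η => 1 + γ * ⟪v t, ∑ s ∈ range t, η s • y s t⟫)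
  rw [← hA] at hξ2
  set S : ℕ → EuclideanSpace ℝ (Fin d) := fun t => ∑ s ∈ range t, ξ s • y s t with hS
  have hST : ∀ t r, t ≤ r → TT γ v t r (S t) = ∑ s ∈ range t, ξ s • y s r := by
    intro t r htr
    simp only [hS, map_sum, map_smul, hy]
    exact sum_congr rfl fun s hs => by rw [TT_comp γ v (mem_range.1 hs) htr]
  have hrow : ∀ t r, t ≤ r → r < N → ∑ s ∈ range t, K r s * ξ s
      = Real.sqrt (gg γ (v r)) * ⟪v r, TT γ v t r (S t)⟫ := by
    intro t r htr hr
    rw [hST t r htr, inner_sum, mul_sum]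
    refine sum_congr rfl fun s _ => ?_
    rw [hK1 r hr, inner_smul_right]; ring
  have hDpos : 0 < 8 * d + 1 := by omega
  have hfb : ∀ t < N, |γ * ⟪v t, S t⟫| < 1/2 := by
    intro t ht
    have q1 := hξ2 5 (by norm_num) 0 hDpos 0 hDpos t ht t ht.le
    have q2 : (∑ s ∈ range t, K t s * ξ s)^2 ≤ QQ (N + d) K ξ
        (msk N (8 * d + 1) (fun s t => ‖y s t‖^2) (mk γ v) 5 0 0 t) t := by
      have := sub_QQ (N + d) K ξ (msk N (8 * d + 1) (fun s t => ‖y s t‖^2) (mk γ v) 5 0 0 t) t {t}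
        (fun r => ∑ s ∈ range t, K r s * ξ s) (fun r hr => by rw [mem_singleton.1 hr]; omega)
        (fun r hr => by
          rw [mem_singleton.1 hr]
          exact sum_congr rfl fun s hs => (it_pos ⟨rfl, rfl, mem_range.1 hs, ht⟩ _).symm)
      simpa using this
    have q3 : ms (N + d) K (msk N (8 * d + 1) (fun s t => ‖y s t‖^2) (mk γ v) 5 0 0 t) t ≤ 2 := by
      have a1 : ms (N + d) K (msk N (8 * d + 1) (fun s t => ‖y s t‖^2) (mk γ v) 5 0 0 t) t
          ≤ ∑ s ∈ range t, K t s ^ 2 := by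
        refine sum_le_sum fun s _ => ?_
        have := row_le (range (N + d)) {t}
          (fun r => msk N (8 * d + 1) (fun s t => ‖y s t‖^2) (mk γ v) 5 0 0 t r s)
          (fun r => K r s ^ 2) (fun r => sq_nonneg _) (fun r hr => mem_singleton.2 hr.2.1)
        simpa using this
      refine a1.trans ?_
      have a2 := Hbound h0 h1 hv (Nat.zero_le t) (v t)
      rw [← range_eq_Ico] at a2
      have a3 : ∑ s ∈ range t, K t s ^ 2
          = gg γ (v t) * ∑ s ∈ range t, ⟪TT γ v (s+1) t (v s), v t⟫^2 := by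
        rw [mul_sum]
        refine sum_congr rfl fun s _ => ?_
        rw [hK1 t ht, mul_pow, Real.sq_sqrt (hgg t), real_inner_comm]
      have a4 : ‖v t‖^2 ≤ 1 := pow_le_one₀ (norm_nonneg _) (hv t)
      have a5 : 0 ≤ ‖TS γ v 0 t (v t)‖^2 := by positivity
      have a6 : ∑ s ∈ range t, ⟪TT γ v (s+1) t (v s), v t⟫^2 ≤ 1 / γ :=
        a2.trans (mul_le_of_le_one_right (by positivity) (by linarith))
      rw [a3]
      calc _ ≤ (2 * γ) * (1 / γ) :=
            mul_le_mul (gg_le _ _) a6 (sum_nonneg fun s _ => sq_nonneg _) (by positivity)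
        _ = 2 := by field_simp
    rw [hrow t t le_rfl ht, TT_self, mul_pow, Real.sq_sqrt (hgg t)] at q2
    have q4 : γ * ⟪v t, S t⟫^2 ≤ 9 * A := by
      have := mul_le_mul_of_nonneg_right (gg_ge h0 h1 (hv t)) (sq_nonneg ⟪v t, S t⟫)
      have q5 : A * ((5/4)^0 + 4 * ms (N + d) K
        (msk N (8 * d + 1) (fun s t => ‖y s t‖^2) (mk γ v) 5 0 0 t) t) ≤ A * 9 :=
        mul_le_mul_of_nonneg_left (by rw [pow_zero]; linarith) hA0
      linarith
    have q6 : (γ * ⟪v t, S t⟫)^2 < (1/2)^2 := by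
      have : (γ * ⟪v t, S t⟫)^2 = γ * (γ * ⟪v t, S t⟫^2) := by ring
      rw [this]
      refine (mul_le_mul_of_nonneg_left q4 h0.le).trans_lt ?_
      rw [hγ, hA]; norm_num
    exact abs_lt_of_sq_lt_sq q6 (by norm_num)
  set ε : ℕ → ℝ := fun t => if t < N then ξ t - γ * ⟪v t, S t⟫ else 1 with hε
  have hsum : ∀ t ≤ N, ∑ s ∈ range t, ε s • v s = S t := by
    intro t ht
    induction t with
    | zero => simp [hS]
    | succ t ih =>
      rw [sum_range_succ, ih (by omega)]
      have e1 : S (t+1) = TT γ v t (t+1) (S t) + ξ t • v t := by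
        rw [hST t (t+1) (by omega)]
        simp only [hS, sum_range_succ, hy, TT_self]
      rw [e1, TT_succ γ v le_rfl, TT_self, Ph_apply]
      simp only [hε, if_pos (show t < N by omega), sub_smul]
      abel
  refine ⟨ε, fun t => ?_, fun τ hτ => ?_⟩
  · by_cases ht : t < N
    · obtain ⟨k, hk⟩ := hξ3 t ht
      have e1 : ∑ s ∈ range t, (if s < t then ξ s else 0) • y s t = S t :=
        sum_congr rfl fun s hs => by rw [if_pos (mem_range.1 hs)]
      simp only [e1] at hk
      have e2 : ε t = 1 + 2 * k := by simp only [hε, if_pos ht]; linarith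
      have a1 := abs_le.1 (hξ1 t)
      have a2 := abs_lt.1 (hfb t ht)
      have b1 : (k:ℝ) < 1 := by linarith
      have b2 : (-2:ℝ) < k := by linarith
      have b3 : k < 1 := by exact_mod_cast b1
      have b4 : -2 < k := by exact_mod_cast b2
      have : k = 0 ∨ k = -1 := by omega
      rcases this with h | h <;> rw [e2, h] <;> norm_num
    · left; simp only [hε, if_neg ht]
  · rw [hsum τ hτ]
    rcases Nat.eq_zero_or_pos τ with rfl | hpos
    · simp only [hS, range_zero, sum_empty, norm_zero]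
      have : 0 ≤ A * (1000 * (1 + h)) * (d + 1) := by positivity
      simpa using this
    obtain ⟨t, rfl⟩ : ∃ t, τ = t + 1 := ⟨τ - 1, by omega⟩
    have htN : t < N := hτ
    have hd0 : (0:ℝ) ≤ d := Nat.cast_nonneg d
    have hP4 : ∀ e, t + 1 ≤ e → ∑ s ∈ range (t+1), ‖y s e‖^2 ≤ h * d := by
      intro e he
      have a1 := H.P2b 0 (t+1) e (by omega) he
      rw [← range_eq_Ico] at a1
      refine a1.trans (mul_le_mul_of_nonneg_left ?_ hh0)
      have := mk_le B γ v (Nat.zero_le e)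
      have := H.m_nonneg (t+1) e
      linarith
    have d1 := decomp H (N + d) (by omega) ξ A (h * d) hA0 t htN (hP4 _ le_rfl)
      (fun j hj x hx => by
        have := hξ2 0 (by norm_num) 0 hDpos j hj x hx (t+1) hτ
        rw [pow_zero] at this
        exact this)
      (fun j hj x hx => by
        have := hξ2 1 (by norm_num) 0 hDpos j hj x hx (t+1) hτ
        rw [pow_zero] at this
        exact this)
      (fun j hj x hx => by
        have := hξ2 2 (by norm_num) 0 hDpos j hj x hx (t+1) hτ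
        rw [pow_zero] at this
        exact this)
      (fun l hl j hj x hx => hξ2 3 (by norm_num) l hl j hj x hx (t+1) hτ)
    have d2 := TT_energy γ v (le_refl (t+1)) hτ (S (t+1))
    rw [TT_self] at d2
    have d3 : ∑ r ∈ Ico (t+1) N, (∑ s ∈ range (t+1), K r s * ξ s)^2
        = ∑ r ∈ Ico (t+1) N, gg γ (v r) * ⟪v r, TT γ v (t+1) r (S (t+1))⟫^2 := by
      refine sum_congr rfl fun r hr => ?_
      rw [hrow (t+1) r (mem_Ico.1 hr).1 (mem_Ico.1 hr).2, mul_pow, Real.sq_sqrt (hgg r)]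
    have q1 := hξ2 4 (by norm_num) 0 hDpos 0 hDpos 0 (by omega) (t+1) hτ
    have q2 : ‖TT γ v (t+1) N (S (t+1))‖^2 ≤ QQ (N + d) K ξ
        (msk N (8 * d + 1) (fun s t => ‖y s t‖^2) (mk γ v) 4 0 0 0) (t+1) := by
      refine le_trans (le_of_eq ?_) (sub_QQ (N + d) K ξ _ (t+1) (Ico N (N + d))
        (fun r => ∑ s ∈ range (t+1), K r s * ξ s) (fun r hr => (mem_Ico.1 hr).2)
        (fun r hr => sum_congr rfl fun s hs => (it_pos ⟨rfl, rfl, (mem_Ico.1 hr).1⟩ _).symm))
      rw [norm_sq_basis B, sum_Ico_eq_sum_range, Nat.add_sub_cancel_left,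
        ← Fin.sum_univ_eq_sum_range (fun i => (∑ s ∈ range (t+1), K (N + i) s * ξ s)^2)]
      refine sum_congr rfl fun i _ => ?_
      rw [hST (t+1) N hτ, sum_inner]
      congr 1
      refine sum_congr rfl fun s _ => ?_
      rw [inner_smul_left]
      simp [hK, mul_comm]
    have q3 : ms (N + d) K (msk N (8 * d + 1) (fun s t => ‖y s t‖^2) (mk γ v) 4 0 0 0) (t+1)
        ≤ h * d := by
      refine le_trans (sum_le_sum fun s _ => ?_) (hP4 N hτ)
      rw [← hcol, it_sum]
      refine sum_le_sum_of_subset_of_nonneg (fun r hr => ?_) fun r _ _ => sq_nonneg _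
      simp only [mem_filter, mem_range] at hr
      exact mem_Ico.2 ⟨hr.2.2.2, hr.1⟩
    have q4 : A * ((5/4)^0 + 4 * ms (N + d) K
        (msk N (8 * d + 1) (fun s t => ‖y s t‖^2) (mk γ v) 4 0 0 0) (t+1)) ≤ A * (1 + 4 * (h * d)) :=
      mul_le_mul_of_nonneg_left (by rw [pow_zero]; linarith) hA0
    have fin : 4 * A * (27 * ((8 * d + 1 : ℕ):ℝ) * (1 + h) + 4 * (h * d)) + A * (1 + 4 * (h * d))
        ≤ A * (1000 * (1 + h)) * (d + 1) := by
      push_cast
      have : 0 ≤ A * h := by positivity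
      have : 0 ≤ A * d := by positivity
      have : 0 ≤ A * h * d := by positivity
      nlinarith
    linarith

end Vale.Agent.P262
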