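import Vale.Agent.P262.Tree

namespace Vale.Agent.P262
open Finset
open Classical

section
variable (N D : ℕ) (En m : ℕ → ℕ → ℝ)

def good (j x s : ℕ) : Prop :=
  s < al m D (j+1) (x-1) ∧ En s (al m D (j+1) (x-1)) ≤ 2 * En s x

def far (j s r : ℕ) : Prop :=
  ∃ x, al m D j r < x ∧ x ≤ r ∧ al m D (j+1) x = x ∧ good D En m j x s

def mNear (j x r s : ℕ) : Prop :=
  r < N ∧ al m D (j+1) x = x ∧ al m D j x < x ∧ x ≤ r ∧ al m D j r = al m D j x ∧
    al m D j x ≤ s ∧ s < x ∧ ¬ far D En m j s r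

def mFar (j a r s : ℕ) : Prop := r < N ∧ al m D j r = a ∧ a ≤ s ∧ far D En m j s r

def mOld (j a r s : ℕ) : Prop := r < N ∧ al m D j r = a ∧ al m D (j+1) r ≠ a ∧ s < a

def mL1 (j a r s : ℕ) : Prop := mOld N D m j a r s ∧ gi m D s r + 1 = nn m D r j

def mL2 (l j a r s : ℕ) : Prop := mOld N D m j a r s ∧ 2^l ∣ nn m D r j ∧
  2^(l+1) * (nn m D r j / 2^(l+1)) ≤ gi m D s r

end

noncomputable def it (P : Prop) (x : ℝ) : ℝ := if P then x else 0

lemma it_pos {P : Prop} (h : P) (x : ℝ) : it P x = x := if_pos h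
lemma it_neg {P : Prop} (h : ¬ P) (x : ℝ) : it P x = 0 := if_neg h
lemma it_nonneg (P : Prop) {x : ℝ} (h : 0 ≤ x) : 0 ≤ it P x := by
  unfold it; split_ifs <;> simp [h]
lemma it_congr {P Q : Prop} (h : P ↔ Q) (x : ℝ) : it P x = it Q x := by
  rw [propext h]
lemma it_le {P Q : Prop} (h : P → Q) {x : ℝ} (hx : 0 ≤ x) : it P x ≤ it Q x := by
  by_cases hP : P
  · rw [it_pos hP, it_pos (h hP)]
  · rw [it_neg hP]; exact it_nonneg _ hx
lemma it_sum (T : Finset ℕ) (P : ℕ → Prop) (f : ℕ → ℝ) :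
    ∑ r ∈ T, it (P r) (f r) = ∑ r ∈ T.filter P, f r := by
  rw [sum_filter]; rfl

lemma row_le (T S : Finset ℕ) (P : ℕ → Prop) (f : ℕ → ℝ) (hf : ∀ r, 0 ≤ f r)
    (h : ∀ r, P r → r ∈ S) : ∑ r ∈ T, it (P r) (f r) ≤ ∑ r ∈ S, f r := by
  rw [it_sum]
  exact sum_le_sum_of_subset_of_nonneg (fun r hr => h r (mem_filter.1 hr).2) fun r _ _ => hf r

section
variable {N D : ℕ} {h : ℝ} {K En m : ℕ → ℕ → ℝ} (H : Hyp N D h K En m)
include H

lemma uniq_sum (M s : ℕ) (hs : s < N) (P : ℕ → ℕ → ℕ → Prop)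
    (h1 : ∀ j < D, ∀ a r, P j a r → s < r ∧ r < N)
    (h2 : ∀ j < D, ∀ j' < D, ∀ a a' r, P j a r → P j' a' r → j = j' ∧ a = a') :
    ∑ j ∈ range D, ∑ a ∈ range N, ∑ r ∈ range M, it (P j a r) (K r s ^ 2) ≤ 1 := by
  rw [← sum_product', sum_comm]
  have h3 : ∀ r ∈ range M, ∑ p ∈ range D ×ˢ range N, it (P p.1 p.2 r) (K r s ^ 2)
      ≤ it (s < r ∧ r < N) (K r s ^ 2) := by
    intro r _
    by_cases hex : ∃ p ∈ range D ×ˢ range N, P p.1 p.2 r
    · obtain ⟨p, hp, hP⟩ := hex
      have hp1 := mem_range.1 (mem_product.1 hp).1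
      rw [sum_eq_single p, it_pos hP, it_pos (h1 _ hp1 _ _ hP)]
      · intro q hq hne
        rw [it_neg]
        intro hQ
        obtain ⟨e1, e2⟩ := h2 _ (mem_range.1 (mem_product.1 hq).1) _ hp1 _ _ _ hQ hP
        exact hne (Prod.ext e1 e2)
      · intro h; exact absurd hp h
    · push Not at hex
      rw [sum_eq_zero fun p hp => it_neg (hex p hp) _]
      exact it_nonneg _ (sq_nonneg _)
  refine (sum_le_sum h3).trans ?_
  refine (row_le _ (Ico (s+1) N) _ _ (fun r => sq_nonneg _) fun r hr => by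
    rw [mem_Ico]; omega).trans ?_
  rw [← H.en_tel s (s+1) N (by omega) (by omega) le_rfl]
  have := H.en_one s
  have := H.en_nonneg s N
  linarith

omit H in
lemma far_lc {j s r : ℕ} (hf : far D En m j s r) : s < al m D (j+1) r ∧ s < r := by
  obtain ⟨x, h1, h2, h3, h4, _⟩ := hf
  have := al_mono m D (j+1) (show x - 1 ≤ r by omega)
  have := al_le m D (j+1) r
  omega

lemma cost_far (M s : ℕ) (hs : s < N) :
    ∑ j ∈ range D, ∑ a ∈ range N, ∑ r ∈ range M,
      it (mFar N D En m j a r s) (K r s ^ 2) ≤ 1 := by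
  refine uniq_sum H M s hs _ ?_ ?_
  · rintro j _ a r ⟨h1, _, _, h4⟩
    exact ⟨(far_lc h4).2, h1⟩
  · rintro j hj j' hj' a a' r ⟨_, h2, h3, h4⟩ ⟨_, h2', h3', h4'⟩
    have e1 := lc_eq m D hj (by omega) (far_lc h4).1
    have e2 := lc_eq m D hj' (by omega) (far_lc h4').1
    have : j = j' := by omega
    subst this
    exact ⟨rfl, by omega⟩

omit H in
lemma old_uniq {j j' a a' r s : ℕ} (h1 : mOld N D m j a r s) (h2 : mOld N D m j' a' r s)
    (h3 : nn m D r j = nn m D r j') : j = j' ∧ a = a' := by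
  obtain ⟨_, e1, e2, _⟩ := h1
  obtain ⟨_, e1', e2', _⟩ := h2
  have : j = j' := by
    rcases lt_trichotomy j j' with h | h | h
    · have := nn_move m D h (by rw [e1]; exact e2); omega
    · exact h
    · have := nn_move m D h (by rw [e1']; exact e2'); omega
  subst this
  exact ⟨rfl, by omega⟩

lemma cost_L1 (M s : ℕ) (hs : s < N) :
    ∑ j ∈ range D, ∑ a ∈ range N, ∑ r ∈ range M,
      it (mL1 N D m j a r s) (K r s ^ 2) ≤ 1 := by
  refine uniq_sum H M s hs _ ?_ ?_
  · rintro j _ a r ⟨⟨h1, h2, _, h4⟩, _⟩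
    have := al_le m D j r
    exact ⟨by omega, h1⟩
  · rintro j hj j' hj' a a' r ⟨h1, h2⟩ ⟨h1', h2'⟩
    exact old_uniq h1 h1' (by omega)

omit H in
lemma blk_uniq {l n g : ℕ} (h1 : 2^l ∣ n) (h2 : 2^(l+1) * (n / 2^(l+1)) ≤ g) (h3 : g < n) :
    n = 2^l * (2 * (g / 2^(l+1)) + 1) := by
  obtain ⟨q, rfl⟩ := h1
  have hp : 0 < 2^l := by positivity
  have e1 : 2^l * q / 2^(l+1) = q / 2 := by
    rw [pow_succ, Nat.mul_div_mul_left _ _ hp]
  rw [e1] at h2
  have hq : q % 2 = 1 := by
    by_contra h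
    have : q = 2 * (q / 2) := by omega
    rw [pow_succ, mul_assoc, ← this] at h2
    omega
  have e2 : g / 2^(l+1) = q / 2 := by
    rw [Nat.div_eq_iff (by positivity)]
    constructor
    · rw [mul_comm]; exact h2
    · have : 2^l * q + 2^l = q / 2 * 2^(l+1) + 2^(l+1) := by
        have : q + 1 = (q / 2) * 2 + 2 := by omega
        calc 2^l * q + 2^l = 2^l * (q + 1) := by ring
          _ = 2^l * ((q / 2) * 2 + 2) := by rw [this]
          _ = _ := by ring
      omega
  rw [e2]
  congr 1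
  omega

lemma cost_L2 (M s l : ℕ) (hs : s < N) :
    ∑ j ∈ range D, ∑ a ∈ range N, ∑ r ∈ range M,
      it (mL2 N D m l j a r s) (K r s ^ 2) ≤ 1 := by
  refine uniq_sum H M s hs _ ?_ ?_
  · rintro j _ a r ⟨⟨h1, h2, _, h4⟩, _⟩
    have := al_le m D j r
    exact ⟨by omega, h1⟩
  · rintro j hj j' hj' a a' r ⟨h1, h2, h3⟩ ⟨h1', h2', h3'⟩
    refine old_uniq h1 h1' ?_
    have hr : s < r := by
      have := al_le m D j r
      have := h1.2.1
      have := h1.2.2.2
      omega
    have g1 := (gi_lt H hr hj.le).2 (by rw [h1.2.1]; exact h1.2.2.2)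
    have g2 := (gi_lt H hr hj'.le).2 (by rw [h1'.2.1]; exact h1'.2.2.2)
    rw [blk_uniq h2 h3 g1, blk_uniq h2' h3' g2]

lemma cost_near (M s : ℕ) (hs : s < N) (hM : N ≤ M) :
    ∑ j ∈ range D, ∑ a ∈ range N, ∑ r ∈ range M,
      it (mNear N D En m j a r s) (K r s ^ 2) ≤ 2 := by
  set P1 : ℕ → ℕ → ℕ → Prop := fun j x r =>
    mNear N D En m j x r s ∧ al m D (j+1) (x-1) ≤ s with hP1
  set P2 : ℕ → ℕ → ℕ → Prop := fun j x r =>
    r < N ∧ al m D (j+1) x = x ∧ s < al m D (j+1) (x-1) ∧ al m D (j+1) (x-1) ≤ r ∧ r < x ∧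
      al m D j x ≤ s with hP2
  have c1 := uniq_sum H M s hs P1 (by
    rintro j _ x r ⟨⟨h1, _, _, h4, _, _, h7, _⟩, _⟩
    exact ⟨by omega, h1⟩) (by
    rintro j hj j' hj' x x' r ⟨⟨_, h2, _, h4, h5, h6, h7, _⟩, h9⟩
      ⟨⟨_, h2', _, h4', h5', h6', h7', _⟩, h9'⟩
    have e1 := lc_eq m D (s := s) (r := r) hj (by omega)
      (by have := al_mono m D (j+1) h4; omega)
    have e2 := lc_eq m D (s := s) (r := r) hj' (by omega)
      (by have := al_mono m D (j'+1) h4'; omega)
    have : j = j' := by omega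
    subst this
    refine ⟨rfl, ?_⟩
    rcases lt_trichotomy x x' with h | h | h
    · have := al_mono m D (j+1) (show x ≤ x' - 1 by omega); omega
    · exact h
    · have := al_mono m D (j+1) (show x' ≤ x - 1 by omega); omega)
  have c2 := uniq_sum H M s hs P2 (by
    rintro j _ x r ⟨h1, _, h3, h4, _⟩
    exact ⟨by omega, h1⟩) (by
    rintro j hj j' hj' x x' r ⟨_, h2, h3, h4, h5, h6⟩ ⟨_, h2', h3', h4', h5', h6'⟩
    have e1 := lc_eq m D (s := s) (r := r) hj
      (by have := al_mono m D j h5.le; omega)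
      (by have := al_int m D (j+1) h4 (show r ≤ x - 1 by omega); omega)
    have e2 := lc_eq m D (s := s) (r := r) hj'
      (by have := al_mono m D j' h5'.le; omega)
      (by have := al_int m D (j'+1) h4' (show r ≤ x' - 1 by omega); omega)
    have : j = j' := by omega
    subst this
    refine ⟨rfl, ?_⟩
    rcases lt_trichotomy x x' with h | h | h
    · have := al_mono m D (j+1) (show x ≤ x' - 1 by omega); omega
    · exact h
    · have := al_mono m D (j+1) (show x' ≤ x - 1 by omega); omega)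
  have key : ∀ j ∈ range D, ∀ x ∈ range N,
      ∑ r ∈ range M, it (mNear N D En m j x r s) (K r s ^ 2)
      ≤ ∑ r ∈ range M, it (P1 j x r) (K r s ^ 2)
        + ∑ r ∈ range M, it (P2 j x r) (K r s ^ 2) := by
    intro j _ x hx
    have hxN := mem_range.1 hx
    have n1 : 0 ≤ ∑ r ∈ range M, it (P1 j x r) (K r s ^ 2) :=
      sum_nonneg fun r _ => it_nonneg _ (sq_nonneg _)
    have n2 : 0 ≤ ∑ r ∈ range M, it (P2 j x r) (K r s ^ 2) :=
      sum_nonneg fun r _ => it_nonneg _ (sq_nonneg _)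
    by_cases hp : al m D (j+1) (x-1) ≤ s
    · have : ∑ r ∈ range M, it (mNear N D En m j x r s) (K r s ^ 2)
          = ∑ r ∈ range M, it (P1 j x r) (K r s ^ 2) :=
        sum_congr rfl fun r _ => it_congr (by simp only [hP1, hp, and_true]) _
      linarith
    · by_cases hex : ∃ r, mNear N D En m j x r s
      · obtain ⟨r0, h1, h2, h3, h4, h5, h6, h7, h8⟩ := hex
        have hng : 2 * En s x < En s (al m D (j+1) (x-1)) := by
          by_contra h9
          exact h8 ⟨x, by omega, h4, h2, by omega, not_lt.1 h9⟩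
        have hle := al_le m D (j+1) (x-1)
        have a1 : ∑ r ∈ range M, it (mNear N D En m j x r s) (K r s ^ 2)
            ≤ ∑ r ∈ Ico x N, K r s ^ 2 :=
          row_le _ _ _ _ (fun r => sq_nonneg _) fun r hr => mem_Ico.2 ⟨hr.2.2.2.1, hr.1⟩
        rw [← H.en_tel s x N h7 hxN.le le_rfl] at a1
        have a2 : ∑ r ∈ range M, it (P2 j x r) (K r s ^ 2)
            = ∑ r ∈ Ico (al m D (j+1) (x-1)) x, K r s ^ 2 := by
          rw [it_sum]
          refine sum_congr ?_ fun _ _ => rfl
          ext r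
          simp only [mem_filter, mem_range, mem_Ico, hP2]
          constructor
          · rintro ⟨_, _, _, _, b4, b5, _⟩; exact ⟨b4, b5⟩
          · rintro ⟨b1, b2⟩
            exact ⟨by omega, by omega, h2, by omega, b1, b2, h6⟩
        rw [← H.en_tel s _ x (by omega) (by omega) hxN.le] at a2
        have := H.en_nonneg s N
        linarith
      · push Not at hex
        rw [sum_eq_zero fun r _ => it_neg (hex r) _]
        linarith
  calc _ ≤ ∑ j ∈ range D, ∑ x ∈ range N, (∑ r ∈ range M, it (P1 j x r) (K r s ^ 2)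
        + ∑ r ∈ range M, it (P2 j x r) (K r s ^ 2)) :=
        sum_le_sum fun j hj => sum_le_sum fun x hx => key j hj x hx
    _ ≤ 2 := by
        simp only [sum_add_distrib]
        linarith

lemma mass_old {j : ℕ} (hj : j < D) (a M τ : ℕ) :
    ∑ s ∈ range τ, ∑ r ∈ range M, it (mOld N D m j a r s) (K r s ^ 2) ≤ h / 4 := by
  set U := (range N).filter (fun r => al m D j r = a ∧ al m D (j+1) r ≠ a) with hU
  have hh := H.h_nonneg
  rcases U.eq_empty_or_nonempty with he | hne
  · rw [sum_eq_zero]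
    · linarith
    · intro s _
      refine sum_eq_zero fun r _ => it_neg ?_ _
      rintro ⟨h1, h2, h3, _⟩
      have : r ∈ U := mem_filter.2 ⟨mem_range.2 h1, h2, h3⟩
      rw [he] at this
      simp at this
  · set x := U.min' hne with hx
    set e := U.max' hne with he
    obtain ⟨hx1, hx2, hx3⟩ := mem_filter.1 (U.min'_mem hne)
    obtain ⟨he1, he2, he3⟩ := mem_filter.1 (U.max'_mem hne)
    rw [← hx] at hx1 hx2 hx3
    rw [← he] at he1 he2 he3
    have hxe : x ≤ e := U.min'_le _ (U.max'_mem hne)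
    rw [mem_range] at hx1 he1
    have b1 := al_par m D j x
    have b2 := al_le m D (j+1) x
    have hax : a < x := by omega
    have b3 : al m D j (x-1) = a := by
      rw [al_int m D j (show al m D j x ≤ x - 1 by omega) (by omega), hx2]
    have b4 : al m D (j+1) (x-1) = a := by
      by_contra h5
      have : x - 1 ∈ U := mem_filter.2 ⟨mem_range.2 (by omega), b3, h5⟩
      have := U.min'_le _ this
      omega
    have b5 : al m D (j+1) x = x := al_new m D (by omega) (by omega)
    have t5 := T5 H b5 (by omega)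
    have t4 := T4 H hj e
    rw [b4] at t5
    rw [he2] at t4
    have p1 := H.P1 a x (e+1) hax.le (by omega)
    calc _ ≤ ∑ s ∈ range τ, it (s < a) (En s x - En s (e+1)) := by
          refine sum_le_sum fun s _ => ?_
          by_cases hs : s < a
          · rw [it_pos hs, H.en_tel s x (e+1) (by omega) (by omega) (by omega)]
            refine row_le _ _ _ _ (fun r => sq_nonneg _) fun r hr => ?_
            obtain ⟨h1, h2, h3, _⟩ := hr
            have hr : r ∈ U := mem_filter.2 ⟨mem_range.2 h1, h2, h3⟩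
            have := U.min'_le _ hr
            have := U.le_max' _ hr
            rw [mem_Ico]; omega
          · rw [it_neg hs]
            exact le_of_eq (sum_eq_zero fun r _ => it_neg (fun hr => hs hr.2.2.2) _)
      _ ≤ ∑ s ∈ range a, (En s x - En s (e+1)) := by
          rw [it_sum]
          refine sum_le_sum_of_subset_of_nonneg
            (fun s hs => by simp only [mem_filter] at hs; exact mem_range.2 hs.2) fun s hs _ => ?_
          rw [H.en_tel s x (e+1) (by have := mem_range.1 hs; omega) (by omega) (by omega)]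
          exact sum_nonneg fun r _ => sq_nonneg _
      _ ≤ h / 4 := by nlinarith

lemma mass_far {j : ℕ} (hj : j < D) (a M τ : ℕ) :
    ∑ s ∈ range τ, ∑ r ∈ range M, it (mFar N D En m j a r s) (K r s ^ 2) ≤ h / 4 := by
  have hh := H.h_nonneg
  by_cases hex : ∃ s r, mFar N D En m j a r s
  swap
  · push Not at hex
    rw [sum_eq_zero fun s _ => sum_eq_zero fun r _ => it_neg (hex s r) _]
    linarith
  obtain ⟨s0, r0, g1, g2, g3, x0, g4, g5, g6, g7⟩ := hex
  set U := (range N).filter (fun r => al m D j r = a) with hU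
  have hne : U.Nonempty := ⟨r0, mem_filter.2 ⟨mem_range.2 g1, g2⟩⟩
  set e := U.max' hne with he
  obtain ⟨he1, he2⟩ := mem_filter.1 (U.max'_mem hne)
  rw [← he] at he1 he2
  rw [mem_range] at he1
  have hle : ∀ r < N, al m D j r = a → r ≤ e := fun r h1 h2 =>
    U.le_max' _ (mem_filter.2 ⟨mem_range.2 h1, h2⟩)
  have t4 := T4 H hj e
  rw [he2] at t4
  have hnode : ∀ x, a ≤ x → x ≤ e → al m D j x = a := fun x h1 h2 => by
    rw [al_int m D j (show al m D j e ≤ x by omega) h2, he2]
  set xs := al m D (j+1) e with hxs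
  have hxs1 : xs ≤ e := al_le _ _ _ _
  have hxs2 : al m D (j+1) xs = xs := al_self _ _ _ _
  have hxs3 : ∀ x, x ≤ e → al m D (j+1) x = x → x ≤ xs := fun x h1 h2 => by
    have := al_mono m D (j+1) h1; omega
  have hxs4 : a < xs := by
    have := hxs3 x0 (g5.trans (hle r0 g1 g2)) g6; omega
  set ps := al m D (j+1) (xs - 1) with hps
  have hps1 : ps ≤ xs - 1 := al_le _ _ _ _
  have hps2 : a ≤ ps := by
    have := al_par m D j (xs - 1)
    rw [hnode (xs - 1) (by omega) (by omega)] at this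
    exact this
  have t5 := T5 H hxs2 (by rw [hnode xs hxs4.le hxs1]; exact hxs4)
  have mm := H.m_mono ps xs (e+1) (by omega) (by omega)
  have p2 := H.P2b a ps (e+1) hps2 (by omega)
  calc _ ≤ ∑ s ∈ range τ, it (a ≤ s ∧ s < ps) (En s (e+1)) := by
        refine sum_le_sum fun s _ => ?_
        by_cases hex : ∃ r, mFar N D En m j a r s
        swap
        · push Not at hex
          rw [sum_eq_zero fun r _ => it_neg (hex r) _]
          exact it_nonneg _ (H.en_nonneg s (e+1))
        obtain ⟨r1, f1, f2, f3, x1, f4, f5, f6, f7⟩ := hex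
        have hQ : ∃ x, a < x ∧ al m D (j+1) x = x ∧ good D En m j x s := ⟨x1, by omega, f6, f7⟩
        set x := Nat.find hQ with hx
        obtain ⟨k1, k2, k3, k4⟩ : a < x ∧ al m D (j+1) x = x ∧ good D En m j x s :=
          Nat.find_spec hQ
        have k5 : x ≤ x1 := Nat.find_min' hQ ⟨by omega, f6, f7⟩
        have k6 : x ≤ e := k5.trans (f5.trans (hle r1 f1 f2))
        set p := al m D (j+1) (x - 1) with hp
        have k7 : p ≤ x - 1 := al_le _ _ _ _
        have k8 : a ≤ p := by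
          have := al_par m D j (x - 1)
          rw [hnode (x - 1) (by omega) (by omega)] at this
          exact this
        have k9 : p ≤ ps := al_mono m D (j+1) (by have := hxs3 x k6 k2; omega)
        rw [it_pos ⟨f3, by omega⟩]
        have a1 : ∑ r ∈ range M, it (mFar N D En m j a r s) (K r s ^ 2)
            ≤ ∑ r ∈ Ico x (e+1), K r s ^ 2 := by
          refine row_le _ _ _ _ (fun r => sq_nonneg _) fun r hr => ?_
          obtain ⟨l1, l2, _, x2, l4, l5, l6, l7⟩ := hr
          have := hle r l1 l2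
          have : x ≤ x2 := Nat.find_min' hQ ⟨by omega, l6, l7⟩
          rw [mem_Ico]; omega
        rw [← H.en_tel s x (e+1) (by omega) (by omega) (by omega)] at a1
        have a2 := H.P2a s p x (e+1) k3 (by omega) (by omega)
        have a3 := T5 H k2 (by rw [hnode x k1.le k6]; exact k1)
        have a4 := H.m_anti a p (e+1) k8 (by omega)
        have a5 := H.en_nonneg s p
        have a6 : (m p (e+1) - m p x) * En s p ≤ (1/4) * En s p :=
          mul_le_mul_of_nonneg_right (by linarith) a5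
        linarith
    _ ≤ ∑ s ∈ Ico a ps, En s (e+1) :=
        row_le _ _ _ _ (fun s => H.en_nonneg _ _) fun s hs => mem_Ico.2 hs
    _ ≤ h / 4 := by nlinarith

end

end Vale.Agent.P262
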