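import Mathlib

namespace Vale.Agent.P262
open Finset

/-- coordinates of a vertex of the cube with side values plus or minus 5/2 -/
noncomputable def cv (x : Finset ℕ) (s : ℕ) : ℝ := if s ∈ x then 5/2 else -(5/2)

noncomputable def mean {Ω : Type} [Fintype Ω] (n : ℕ) (q : Finset ℕ → Ω → ℝ) (s : ℕ) : ℝ :=
  ∑ x ∈ (range n).powerset, ∑ ω, q x ω * cv x s

lemma minmax (a b c d : ℝ) :
    min a c + min b d ≤ min (min a b) (min c d) + min (max a b) (max c d) := by
  simp only [min_def, max_def]
  split_ifs <;> linarith

lemma sum_pow_succ (n : ℕ) (f : Finset ℕ → ℝ) :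
    ∑ x ∈ (range (n+1)).powerset, f x
      = ∑ x ∈ (range n).powerset, (f x + f (insert n x)) := by
  rw [range_add_one, sum_powerset_insert (by simp), sum_add_distrib]

lemma sum_pow_erase (n s : ℕ) (hs : s < n) (f : Finset ℕ → ℝ) :
    ∑ x ∈ ((range (n+1)).erase s).powerset, f x
      = ∑ x ∈ ((range n).erase s).powerset, (f x + f (insert n x)) := by
  rw [range_add_one, erase_insert_of_ne (by omega), sum_powerset_insert (by simp), sum_add_distrib]

theorem split (c : ℕ → (ℕ → ℝ) → ℝ) (n : ℕ) :
    ∀ (Ω : Type) [Fintype Ω] (p : Finset ℕ → Ω → ℝ), (∀ x ω, 0 ≤ p x ω) →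
    (∀ s < n, 2/5 ≤ ∑ x ∈ ((range n).erase s).powerset, ∑ ω, min (p x ω) (p (insert s x) ω)) →
    ∃ q : Finset ℕ → Ω → ℝ, (∀ x ω, 0 ≤ q x ω) ∧ (∀ x ω, p x ω = 0 → q x ω = 0) ∧
      (∀ ω, ∑ x ∈ (range n).powerset, q x ω = ∑ x ∈ (range n).powerset, p x ω) ∧
      ∀ t < n, ∃ k : ℤ, mean n q t = c t (fun s => if s < t then mean n q s else 0) + 2 * k := by
  induction n with
  | zero =>
    intro Ω _ p hp _
    exact ⟨p, hp, fun _ _ h => h, fun _ => rfl, fun t ht => absurd ht (by omega)⟩
  | succ n ih =>
    intro Ω _ p hp hov
    classical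
    set p' : Finset ℕ → Ω × Bool → ℝ := fun x w =>
      if w.2 then min (p x w.1) (p (insert n x) w.1) else max (p x w.1) (p (insert n x) w.1)
      with hp'
    have hp'0 : ∀ x w, 0 ≤ p' x w := by
      intro x w
      simp only [hp']
      split_ifs
      · exact le_min (hp _ _) (hp _ _)
      · exact le_max_of_le_left (hp _ _)
    have hov' : ∀ s < n, 2/5 ≤ ∑ x ∈ ((range n).erase s).powerset, ∑ w,
        min (p' x w) (p' (insert s x) w) := by
      intro s hs
      have h := hov s (by omega)
      rw [sum_pow_erase n s hs] at h
      refine h.trans (sum_le_sum fun x _ => ?_)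
      rw [Fintype.sum_prod_type, ← sum_add_distrib]
      refine sum_le_sum fun ω _ => ?_
      rw [Fintype.sum_bool]
      simp only [hp', if_true, Bool.false_eq_true, if_false]
      rw [insert_comm s n x]
      exact minmax _ _ _ _
    obtain ⟨q', hq0, hqs, hqm, hqc⟩ := ih (Ω × Bool) p' hp'0 hov'
    set M : ℝ := ∑ x ∈ (range n).powerset, ∑ ω, q' x (ω, true) with hM
    have hM2 : 2/5 ≤ M := by
      have h := hov n (by omega)
      rw [range_add_one, erase_insert (by simp)] at h
      rw [hM, sum_comm]
      simp only [hqm]
      rw [sum_comm]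
      simpa [hp'] using h
    set A : ℝ := ∑ x ∈ (range n).powerset, ∑ ω, q' x (ω, false) *
      (if p x ω ≤ p (insert n x) ω then 5/2 else -(5/2)) with hA
    set tgt : ℝ := c n (fun s => if s < n then mean n q' s else 0) with htgt
    set lo : ℝ := A - 5/2 * M with hlo
    set k : ℤ := ⌈(lo - tgt) / 2⌉ with hk
    have hk1 : (lo - tgt) / 2 ≤ k := Int.le_ceil _
    have hk2 : (k : ℝ) < (lo - tgt) / 2 + 1 := Int.ceil_lt_add_one _
    set lam : ℝ := (tgt + 2 * k - lo) / (5 * M) with hlam
    have hMpos : 0 < M := by linarith
    have hl0 : 0 ≤ lam := div_nonneg (by linarith) (by linarith)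
    have hl1 : lam ≤ 1 := by
      rw [hlam, div_le_one (by linarith)]; linarith
    have hlM : lam * (5 * M) = tgt + 2 * k - lo := by
      rw [hlam]; field_simp
    set q : Finset ℕ → Ω → ℝ := fun y ω =>
      if n ∈ y then q' (y.erase n) (ω, false) * (if p (y.erase n) ω ≤ p y ω then 1 else 0)
        + q' (y.erase n) (ω, true) * lam
      else q' y (ω, false) * (if p y ω ≤ p (insert n y) ω then 0 else 1)
        + q' y (ω, true) * (1 - lam) with hq
    have hq1 : ∀ x ∈ (range n).powerset, ∀ ω, q x ω =
        q' x (ω, false) * (if p x ω ≤ p (insert n x) ω then 0 else 1)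
        + q' x (ω, true) * (1 - lam) := by
      intro x hx ω
      have : n ∉ x := fun h => by simpa using mem_powerset.1 hx h
      simp only [hq, this, if_false]
    have hq2 : ∀ x ∈ (range n).powerset, ∀ ω, q (insert n x) ω =
        q' x (ω, false) * (if p x ω ≤ p (insert n x) ω then 1 else 0)
        + q' x (ω, true) * lam := by
      intro x hx ω
      have : n ∉ x := fun h => by simpa using mem_powerset.1 hx h
      simp only [hq, mem_insert_self, if_true, erase_insert this]
    have hsum : ∀ x ∈ (range n).powerset, ∀ ω, q x ω + q (insert n x) ω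
        = q' x (ω, true) + q' x (ω, false) := by
      intro x hx ω
      rw [hq1 x hx, hq2 x hx]
      split_ifs <;> ring
    have hmean : ∀ s < n, mean (n+1) q s = mean n q' s := by
      intro s hs
      unfold mean
      rw [sum_pow_succ]
      refine sum_congr rfl fun x hx => ?_
      rw [Fintype.sum_prod_type, ← sum_add_distrib]
      refine sum_congr rfl fun ω _ => ?_
      rw [Fintype.sum_bool]
      have : cv (insert n x) s = cv x s := by
        have : s ≠ n := by omega
        simp [cv, this]
      rw [this, ← add_mul, hsum x hx, add_mul]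
    refine ⟨q, ?_, ?_, ?_, ?_⟩
    · intro y ω
      simp only [hq]
      have := hq0
      split_ifs <;>
        exact add_nonneg (mul_nonneg (hq0 _ _) (by norm_num))
          (mul_nonneg (hq0 _ _) (by linarith))
    · intro y ω h0
      simp only [hq]
      by_cases hy : n ∈ y
      · have h1 : q' (y.erase n) (ω, true) = 0 := by
          apply hqs
          simp only [hp', if_true, insert_erase hy, h0]
          exact min_eq_right (hp _ _)
        rw [if_pos hy, h1]
        by_cases h2 : p (y.erase n) ω ≤ p y ω
        · have h3 : q' (y.erase n) (ω, false) = 0 := by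
            apply hqs
            simp only [hp', Bool.false_eq_true, if_false, insert_erase hy]
            rw [max_eq_right h2, h0]
          simp [h3]
        · simp [h2]
      · have h1 : q' y (ω, true) = 0 := by
          apply hqs
          simp only [hp', if_true, h0]
          exact min_eq_left (hp _ _)
        have h2 : p y ω ≤ p (insert n y) ω := by rw [h0]; exact hp _ _
        simp [hy, h1, h2]
    · intro ω
      rw [sum_pow_succ, sum_pow_succ, sum_congr rfl (fun x hx => hsum x hx ω), sum_add_distrib,
        hqm, hqm, ← sum_add_distrib]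
      refine sum_congr rfl fun x _ => ?_
      simp only [hp', if_true, Bool.false_eq_true, if_false]
      exact min_add_max _ _
    · intro t ht
      rcases Nat.lt_succ_iff_lt_or_eq.1 ht with h | h
      · obtain ⟨k', hk'⟩ := hqc t h
        refine ⟨k', ?_⟩
        rw [hmean t h, hk']
        congr 2
        funext s
        split_ifs with hs
        · exact (hmean s (by omega)).symm
        · rfl
      · subst h
        refine ⟨k, ?_⟩
        have h1 : (fun s => if s < t then mean (t+1) q s else 0)
            = (fun s => if s < t then mean t q' s else 0) := by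
          funext s
          split_ifs with hs
          · exact hmean s hs
          · rfl
        rw [h1, ← htgt]
        have h2 : mean (t+1) q t = A + (2 * lam - 1) * (5/2) * M := by
          unfold mean
          rw [sum_pow_succ, hA, hM, mul_sum, ← sum_add_distrib]
          refine sum_congr rfl fun x hx => ?_
          rw [mul_sum, ← sum_add_distrib, ← sum_add_distrib]
          refine sum_congr rfl fun ω _ => ?_
          have hn : t ∉ x := fun h => by simpa using mem_powerset.1 hx h
          rw [hq1 x hx, hq2 x hx]
          simp only [cv, hn, mem_insert_self, if_true, if_false]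
          split_ifs <;> ring
        rw [h2]
        linarith

end Vale.Agent.P262
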