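import Vale.Agent.P262.Main

namespace Vale.Agent.P262
open Finset

lemma sum_fin_lt {E : Type} [AddCommMonoid E] (N : ℕ) (f : ℕ → E) (k : ℕ) :
    ∑ i : Fin N with i.val < k, f i.val = ∑ s ∈ range (min k N), f s := by
  rw [sum_filter, Fin.sum_univ_eq_sum_range (fun i => if i < k then f i else 0) N, ← sum_filter]
  refine sum_congr ?_ fun _ _ => rfl
  ext s
  simp only [mem_filter, mem_range, lt_min_iff]
  tauto

theorem signs : ∃ C : ℝ, ∀ d : ℕ, 1 ≤ d → ∀ (N : ℕ) (v : Fin N → EuclideanSpace ℝ (Fin d)),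
    (∀ i, ‖v i‖ ≤ 1) → ∃ ε : Fin N → ℝ, (∀ i, ε i = 1 ∨ ε i = -1) ∧
      ∀ k : ℕ, ‖∑ i : Fin N with i.val < k, ε i • v i‖ ≤ C * √d := by
  obtain ⟨C, hC0, hC⟩ := balance
  refine ⟨√(2 * C), fun d hd N v hv => ?_⟩
  obtain ⟨ε, h1, h2⟩ := hC d N (fun s => if h : s < N then v ⟨s, h⟩ else 0) (by
    intro s
    split_ifs
    · exact hv _
    · simp)
  refine ⟨fun i => ε i, fun i => h1 i, fun k => ?_⟩
  have e := sum_fin_lt N (fun s => ε s • (if h : s < N then v ⟨s, h⟩ else 0)) k
  simp only [Fin.is_lt, dif_pos, Fin.eta] at e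
  rw [e, ← Real.sqrt_mul (by positivity)]
  refine Real.le_sqrt_of_sq_le ((h2 _ (min_le_right _ _)).trans ?_)
  have : (1:ℝ) ≤ d := by exact_mod_cast hd
  nlinarith

theorem transfer {E : Type} [NormedAddCommGroup E] [NormedSpace ℝ E] {N : ℕ} (v : Fin N → E)
    (σ : ℝ) (hz : ∑ i, v i = 0)
    (hσ : ∀ π : Equiv.Perm (Fin N), ∃ ε : Fin N → ℝ, (∀ i, ε i = 1 ∨ ε i = -1) ∧
      ∀ k : ℕ, ‖∑ i : Fin N with i.val < k, ε i • v (π i)‖ ≤ σ) :
    ∃ π : Equiv.Perm (Fin N), ∀ k : ℕ, ‖∑ i : Fin N with i.val < k, v (π i)‖ ≤ σ := by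
  classical
  set β : Equiv.Perm (Fin N) → ℝ := fun π => (range (N+1)).sup' ⟨0, by simp⟩
    (fun k => ‖∑ i : Fin N with i.val < k, v (π i)‖) with hβ
  have hβ1 : ∀ π (k : ℕ), ‖∑ i : Fin N with i.val < k, v (π i)‖ ≤ β π := by
    intro π k
    have e : (univ.filter fun i : Fin N => i.val < k)
        = univ.filter fun i : Fin N => i.val < min k N := by
      ext i; simp
    rw [e]
    exact le_sup' (fun k => ‖∑ i : Fin N with i.val < k, v (π i)‖)
      (mem_range.2 (Nat.lt_succ_of_le (min_le_right _ _)))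
  obtain ⟨π, -, hπ⟩ := exists_min_image univ β univ_nonempty
  obtain ⟨ε, h1, h2⟩ := hσ π
  refine ⟨π, fun k => (hβ1 π k).trans ?_⟩
  set key : Fin N → ℕ := fun i => if ε i = 1 then (i:ℕ) else 2 * N - i with hkey
  have hinj : Function.Injective key := by
    intro i j hij
    simp only [hkey] at hij
    have := i.2
    have := j.2
    apply Fin.ext
    split_ifs at hij <;> omega
  set ρ := Tuple.sort key with hρ
  have hmono : StrictMono (key ∘ ρ) :=
    (Tuple.monotone_sort key).strictMono_of_injective (hinj.comp ρ.injective)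
  have hu : ∑ i, v (π i) = 0 := by rw [Equiv.sum_comp π v, hz]
  have half : ∀ (θ : ℕ), ‖∑ x : Fin N with key x < θ, v (π x)‖ ≤ (β π + σ) / 2 := by
    intro θ
    have main : ∀ (k : ℕ) (a : ℝ) (w : E), |a| = 1 →
        (2:ℝ) • w = a • ∑ i : Fin N with i.val < k, v (π i)
          + ∑ i : Fin N with i.val < k, ε i • v (π i) → ‖w‖ ≤ (β π + σ) / 2 := by
      intro k a w ha hw
      have t1 := norm_add_le (a • ∑ i : Fin N with i.val < k, v (π i))
        (∑ i : Fin N with i.val < k, ε i • v (π i))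
      rw [← hw, norm_smul, norm_smul, Real.norm_eq_abs, Real.norm_eq_abs, ha] at t1
      have := hβ1 π k
      have := h2 k
      norm_num at t1
      linarith
    by_cases hθ : θ ≤ N
    · refine main θ 1 _ (by simp) ?_
      simp only [sum_filter, smul_sum, ← sum_add_distrib]
      refine sum_congr rfl fun i _ => ?_
      have := i.2
      rcases h1 i with h | h
      · simp only [hkey, h, if_true]
        split_ifs
        · module
        · simp
      · have h' : ¬ ε i = 1 := by rw [h]; norm_num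
        simp only [hkey, h', if_false]
        rw [if_neg (by omega), h]
        split_ifs
        · module
        · simp
    · refine main (2 * N + 1 - θ) (-1) _ (by simp) ?_
      have e : ∑ x : Fin N with key x < θ, v (π x)
          = ∑ x : Fin N with key x < θ, v (π x) - ∑ i, v (π i) := by rw [hu, sub_zero]
      rw [e]
      simp only [sum_filter, smul_sum, ← sum_add_distrib, ← sum_sub_distrib]
      refine sum_congr rfl fun i _ => ?_
      have := i.2
      rcases h1 i with h | h
      · simp only [hkey, h, if_true]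
        rw [if_pos (by omega)]
        split_ifs
        · module
        · simp
      · have h' : ¬ ε i = 1 := by rw [h]; norm_num
        simp only [hkey, h', if_false]
        rw [h]
        by_cases h3 : 2 * N - (i:ℕ) < θ
        · rw [if_pos h3, if_neg (by omega), if_neg (by omega)]; simp
        · rw [if_neg h3, if_pos (by omega), if_pos (by omega)]; module
  have hle : β (ρ.trans π) ≤ (β π + σ) / 2 := by
    refine sup'_le _ _ fun k _ => ?_
    obtain ⟨θ, hθ⟩ : ∃ θ : ℕ, ∀ i : Fin N, i.val < k ↔ key (ρ i) < θ := by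
      by_cases hk : k < N
      · exact ⟨key (ρ ⟨k, hk⟩), fun i => (hmono.lt_iff_lt (a := i) (b := ⟨k, hk⟩)).symm⟩
      · refine ⟨2 * N + 1, fun i => ?_⟩
        have := i.2
        have := (ρ i).2
        simp only [hkey]
        split_ifs <;> omega
    refine le_trans (le_of_eq ?_) (half θ)
    congr 1
    simp only [sum_filter, hθ]
    exact Equiv.sum_comp ρ (fun x => if key x < θ then v (π x) else 0)
  have := hπ (ρ.trans π) (mem_univ _)
  linarith

end Vale.Agent.P262
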