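import Mathlib

namespace Vale.Agent.P262
open Finset

structure Hyp (N D : ℕ) (h : ℝ) (K En m : ℕ → ℕ → ℝ) : Prop where
  D_pos : 0 < D
  h_nonneg : 0 ≤ h
  en_tel : ∀ s b e, s < b → b ≤ e → e ≤ N → En s b - En s e = ∑ r ∈ Ico b e, K r s ^ 2
  en_nonneg : ∀ s b, 0 ≤ En s b
  en_one : ∀ s, En s (s+1) ≤ 1
  m_nonneg : ∀ a b, 0 ≤ m a b
  m_self : ∀ a, m a a = 0
  m_step : ∀ a b, a ≤ b → m a (b+1) ≤ m a b + 1/16
  m_top : ∀ a b, a ≤ b → m a b < D / 8
  m_mono : ∀ a b e, a ≤ b → b ≤ e → m a b ≤ m a e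
  m_anti : ∀ a' a b, a' ≤ a → a ≤ b → m a b ≤ m a' b
  P1 : ∀ a b e, a ≤ b → b ≤ e → ∑ s ∈ range a, (En s b - En s e) ≤ h * (m a e - m a b)
  P2a : ∀ s a b e, s < a → a ≤ b → b ≤ e → En s b - En s e ≤ (m a e - m a b) * En s a
  P2b : ∀ a' a e, a' ≤ a → a ≤ e → ∑ s ∈ Ico a' a, En s e ≤ h * (m a' e - m a e)

noncomputable def th (D j : ℕ) : ℝ := ((D:ℝ) - j) / 8

open Classical in
noncomputable def nxt (m : ℕ → ℕ → ℝ) (θ : ℝ) (par : ℕ → ℕ) : ℕ → ℕ
  | 0 => 0
  | t+1 => if par (t+1) = t+1 ∨ θ ≤ m (nxt m θ par t) (t+2) then t+1 else nxt m θ par t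

/-- start of the depth j node containing step t -/
noncomputable def al (m : ℕ → ℕ → ℝ) (D : ℕ) : ℕ → ℕ → ℕ
  | 0 => fun _ => 0
  | j+1 => nxt m (th D (j+1)) (al m D j)

section
variable (m : ℕ → ℕ → ℝ) (D : ℕ)

lemma al_zero (t : ℕ) : al m D 0 t = 0 := rfl

lemma al_at_zero (j : ℕ) : al m D j 0 = 0 := by cases j <;> rfl

open Classical in
lemma al_succ (j t : ℕ) : al m D (j+1) (t+1) =
    if al m D j (t+1) = t+1 ∨ th D (j+1) ≤ m (al m D (j+1) t) (t+2) then t+1
    else al m D (j+1) t := rfl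

lemma al_step (j t : ℕ) : al m D j (t+1) = t+1 ∨ al m D j (t+1) = al m D j t := by
  cases j with
  | zero => right; rfl
  | succ j => rw [al_succ]; split_ifs <;> simp

lemma al_le (j t : ℕ) : al m D j t ≤ t := by
  induction t with
  | zero => rw [al_at_zero]
  | succ t ih => rcases al_step m D j t with h | h <;> omega

lemma al_mono (j : ℕ) {s t : ℕ} (h : s ≤ t) : al m D j s ≤ al m D j t := by
  induction t, h using Nat.le_induction with
  | base => exact le_rfl
  | succ t h ih =>
    have := al_le m D j t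
    rcases al_step m D j t with h | h <;> omega

lemma al_int (j : ℕ) {s t : ℕ} (h1 : al m D j t ≤ s) (h2 : s ≤ t) : al m D j s = al m D j t := by
  induction t, h2 using Nat.le_induction with
  | base => rfl
  | succ t h ih =>
    rcases al_step m D j t with h3 | h3
    · omega
    · rw [h3] at h1 ⊢; exact ih h1

lemma al_self (j t : ℕ) : al m D j (al m D j t) = al m D j t :=
  al_int m D j le_rfl (al_le m D j t)

lemma al_par (j t : ℕ) : al m D j t ≤ al m D (j+1) t := by
  induction t with
  | zero => simp [al_at_zero]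
  | succ t ih =>
    have h1 := al_mono m D (j+1) (Nat.le_succ t)
    rcases al_step m D j t with h | h
    · rw [al_succ, if_pos (Or.inl h)]; omega
    · rw [h]; exact ih.trans h1

lemma al_monoj {i j : ℕ} (h : i ≤ j) (t : ℕ) : al m D i t ≤ al m D j t := by
  induction j, h using Nat.le_induction with
  | base => exact le_rfl
  | succ j h ih => exact ih.trans (al_par m D j t)

lemma al_same {i j t r : ℕ} (hij : i ≤ j) (h1 : al m D j r ≤ t) (h2 : t ≤ r) :
    al m D i t = al m D i r :=
  al_int m D i ((al_monoj m D hij r).trans h1) h2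

lemma al_new {j x : ℕ} (hx : 0 < x) (h : al m D j (x-1) < al m D j x) : al m D j x = x := by
  obtain ⟨t, rfl⟩ : ∃ t, x = t + 1 := ⟨x - 1, by omega⟩
  simp only [Nat.add_sub_cancel] at h
  rcases al_step m D j t with h1 | h1 <;> omega

noncomputable def lc (s r : ℕ) : ℕ := Nat.findGreatest (fun j => al m D j r ≤ s) D

lemma lc_le (s r : ℕ) : lc m D s r ≤ D := Nat.findGreatest_le _

lemma al_lc (s r : ℕ) : al m D (lc m D s r) r ≤ s :=
  Nat.findGreatest_spec (P := fun j => al m D j r ≤ s) (Nat.zero_le D) (Nat.zero_le s)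

lemma le_lc {s r j : ℕ} (hj : j ≤ D) : j ≤ lc m D s r ↔ al m D j r ≤ s :=
  ⟨fun h => (al_monoj m D h r).trans (al_lc m D s r),
    fun h => Nat.le_findGreatest (P := fun j => al m D j r ≤ s) hj h⟩

lemma lc_eq {s r j : ℕ} (hj : j < D) (h1 : al m D j r ≤ s) (h2 : s < al m D (j+1) r) :
    lc m D s r = j := by
  have h3 := (le_lc m D hj.le).2 h1
  have h4 : ¬ (j + 1 ≤ lc m D s r) := fun h => by
    have := (le_lc m D (show j + 1 ≤ D by omega)).1 h
    omega
  omega

open Classical in
noncomputable def nn (r : ℕ) : ℕ → ℕ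
  | 0 => 0
  | j+1 => nn r j + if al m D j r = al m D (j+1) r then 0 else 1

lemma nn_le (r j : ℕ) : nn m D r j ≤ j := by
  induction j with
  | zero => exact le_rfl
  | succ j ih => simp only [nn]; split_ifs <;> omega

lemma nn_mono (r : ℕ) {i j : ℕ} (h : i ≤ j) : nn m D r i ≤ nn m D r j := by
  induction j, h using Nat.le_induction with
  | base => exact le_rfl
  | succ j h ih => simp only [nn]; omega

lemma nn_move {r i j : ℕ} (h : i < j) (hm : al m D (i+1) r ≠ al m D i r) :
    nn m D r i < nn m D r j := by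
  have h1 := nn_mono m D r (show i + 1 ≤ j by omega)
  simp only [nn, if_neg (Ne.symm hm)] at h1
  omega

lemma nn_same {j t r : ℕ} (h1 : al m D j r ≤ t) (h2 : t ≤ r) : ∀ i ≤ j, nn m D t i = nn m D r i := by
  intro i hi
  induction i with
  | zero => rfl
  | succ i ih =>
    simp only [nn]
    rw [ih (by omega), al_same m D (show i ≤ j by omega) h1 h2, al_same m D hi h1 h2]

lemma nn_ivt (r j u : ℕ) (h : u < nn m D r j) :
    ∃ i < j, nn m D r i = u ∧ al m D (i+1) r ≠ al m D i r := by
  induction j with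
  | zero => simp [nn] at h
  | succ j ih =>
    by_cases h1 : u < nn m D r j
    · obtain ⟨i, hi, h2⟩ := ih h1
      exact ⟨i, by omega, h2⟩
    · simp only [nn] at h
      split_ifs at h with h2
      · omega
      · exact ⟨j, by omega, by omega, Ne.symm h2⟩

noncomputable def gi (s r : ℕ) : ℕ := nn m D r (lc m D s r)

end

section
variable {N D : ℕ} {h : ℝ} {K En m : ℕ → ℕ → ℝ} (H : Hyp N D h K En m)
include H

lemma al_top (t : ℕ) : al m D D t = t := by
  obtain ⟨j, hj⟩ : ∃ j, D = j + 1 := ⟨D - 1, by have := H.D_pos; omega⟩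
  cases t with
  | zero => exact al_at_zero _ _ _
  | succ t =>
    have : al m D (j+1) (t+1) = t+1 := by
      rw [al_succ, if_pos]
      right
      have : th D (j+1) = 0 := by rw [← hj]; simp [th]
      rw [this]; exact H.m_nonneg _ _
    rw [← hj] at this
    exact this

lemma lc_lt {s r : ℕ} (hs : s < r) : lc m D s r < D := by
  have h1 := lc_le m D s r
  have h2 := al_lc m D s r
  by_contra h3
  have : lc m D s r = D := by omega
  rw [this, al_top H] at h2
  omega

lemma lt_al_lc {s r : ℕ} (hs : s < r) : s < al m D (lc m D s r + 1) r := by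
  by_contra h1
  have := (le_lc m D (show lc m D s r + 1 ≤ D from lc_lt H hs)).2 (not_lt.1 h1)
  omega

lemma gi_lt {s r j : ℕ} (hs : s < r) (hj : j ≤ D) : gi m D s r < nn m D r j ↔ s < al m D j r := by
  unfold gi
  constructor
  · intro h1
    by_contra h2
    have := nn_mono m D r ((le_lc m D hj).2 (not_lt.1 h2))
    omega
  · intro h1
    have h2 : ¬ (j ≤ lc m D s r) := fun h => by
      have := (le_lc m D hj).1 h
      omega
    refine nn_move m D (by omega) ?_
    have := al_lc m D s r
    have := lt_al_lc H hs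
    omega

lemma T4 {j : ℕ} (hj : j < D) (t : ℕ) : m (al m D j t) (t+1) < th D j := by
  cases j with
  | zero =>
    have := H.m_top 0 (t+1) (by omega)
    simpa [th, al_zero] using this
  | succ j =>
    have h1 : ∀ a, m a (a+1) < th D (j+1) := by
      intro a
      have h2 := H.m_step a a le_rfl
      rw [H.m_self] at h2
      have : ((j+1:ℕ):ℝ) + 1 ≤ D := by exact_mod_cast hj
      unfold th
      linarith
    cases t with
    | zero => rw [al_at_zero]; exact h1 0
    | succ t =>
      rw [al_succ]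
      split_ifs with h2
      · exact h1 _
      · push Not at h2
        exact h2.2

lemma T5 {j x : ℕ} (h1 : al m D (j+1) x = x) (h2 : al m D j x < x) :
    th D j - 1/4 ≤ m (al m D (j+1) (x-1)) x := by
  obtain ⟨t, rfl⟩ : ∃ t, x = t + 1 := ⟨x - 1, by omega⟩
  simp only [Nat.add_sub_cancel]
  have h3 := al_le m D (j+1) t
  rw [al_succ] at h1
  split_ifs at h1 with h4
  · rcases h4 with h4 | h4
    · omega
    · have := H.m_step (al m D (j+1) t) (t+1) (by omega)
      unfold th at h4 ⊢
      push_cast at h4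
      linarith
  · omega

end

end Vale.Agent.P262
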